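import Vale.Agent.P092RD.Pom3
import Vale.Agent.P092CP.Cp

/-!
P092 (helper77): commutation of the translates of a boundary measure from the row and column
relations (first order perturbation tested on Hilbert-Schmidt elements).
-/

set_option linter.all false

open scoped InnerProductSpace ENNReal NNReal
open MeasureTheory Filter Topology ContinuousLinearMap Set

namespace Vale.Agent.P092RD

open Vale.Agent.P092CP
open Vale.Agent.P092.RC (Cm)
open POM (ex bd_ex norm_ex ex_add star_ex)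

section pom

variable {Y K : Type} [MeasurableSpace Y] [NormedAddCommGroup K] [InnerProductSpace ℂ K]
  {θ : POM Y K}

theorem POM.IsP.tendsto_strong_on (hθ : θ.IsP) {U : Set Y} (hU : MeasurableSet U)
    (h1 : θ.P U = 1) {ι : Type*} {l : Filter ι} [l.IsCountablyGenerated] {F : ι → Y → ℂ}
    {g : Y → ℂ} {C : ℝ} (hF : ∀ n, Bd (F n)) (hg : Bd g) (hC0 : 0 ≤ C) (hC : ∀ n x, ‖F n x‖ ≤ C)
    (hl : ∀ x ∈ U, Tendsto (fun n => F n x) l (𝓝 (g x))) (ξ : K) :
    Tendsto (fun n => θ.f (F n) ξ) l (𝓝 (θ.f g ξ)) := by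
  have e : ∀ g, Bd g → θ.f g = θ.f (U.indicator g) := fun g hg =>
    hθ.f_congr_on hU h1 hg (bd_ind hU hg) fun y hy => (indicator_of_mem hy g).symm
  rw [e g hg]
  simp_rw [fun n => e (F n) (hF n)]
  refine θ.tendsto_strong (C := C) (fun n => bd_ind hU (hF n)) (bd_ind hU hg) (fun n x => ?_)
    (fun x => ?_) ξ
  · by_cases hx : x ∈ U
    · rw [indicator_of_mem hx]; exact hC n x
    · rw [indicator_of_notMem hx, norm_zero]; exact hC0
  · by_cases hx : x ∈ U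
    · simp only [indicator_of_mem hx]; exact hl x hx
    · simp only [indicator_of_notMem hx]; exact tendsto_const_nhds

theorem tendsto_ex {ι : Type*} {l : Filter ι} {D : ι → Y → ℝ} {E : Y → ℝ} {x : Y} (t : ℝ)
    (h : Tendsto (fun n => D n x) l (𝓝 (E x))) : Tendsto (fun n => ex t (D n) x) l (𝓝 (ex t E x)) :=
  (Complex.continuous_exp.tendsto _).comp
    ((((Complex.continuous_ofReal.tendsto _).comp h).const_mul _).mul_const _)

theorem norm_f_ex_le (θ : POM Y K) (t : ℝ) {D : Y → ℝ} (hD : Measurable D) :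
    ‖θ.f (ex t D)‖ ≤ 1 := θ.norm_le (bd_ex t hD) zero_le_one fun y => (norm_ex t D y).le

theorem POM.IsP.ex_mul_neg (hθ : θ.IsP) (t : ℝ) {D : Y → ℝ} (hD : Measurable D) :
    θ.f (ex t D) * θ.f (ex (-t) D) = 1 := by
  rw [← hθ.mul _ _ (bd_ex t hD) (bd_ex (-t) hD), ← hθ.one]
  congr 1
  ext y
  simp [ex, ← Complex.exp_add]

theorem POM.IsP.ex_neg_mul (hθ : θ.IsP) (t : ℝ) {D : Y → ℝ} (hD : Measurable D) :
    θ.f (ex (-t) D) * θ.f (ex t D) = 1 := by
  simpa using hθ.ex_mul_neg (-t) hD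

theorem tendsto_mul_ap {ι : Type*} {l : Filter ι} {S T : ι → K →L[ℂ] K} {S₀ T₀ : K →L[ℂ] K}
    {C : ℝ} (hC : ∀ n, ‖S n‖ ≤ C) (hS : ∀ ξ, Tendsto (fun n => S n ξ) l (𝓝 (S₀ ξ)))
    (hT : ∀ ξ, Tendsto (fun n => T n ξ) l (𝓝 (T₀ ξ))) (ξ : K) :
    Tendsto (fun n => (S n * T n) ξ) l (𝓝 ((S₀ * T₀) ξ)) := by
  have h1 : Tendsto (fun n => S n (T n ξ - T₀ ξ)) l (𝓝 0) := by
    refine squeeze_zero_norm (fun n => (S n).le_of_opNorm_le (hC n) _) ?_
    simpa using (tendsto_iff_norm_sub_tendsto_zero.1 (hT ξ)).const_mul C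
  have h2 := h1.add (hS (T₀ ξ))
  rw [zero_add] at h2
  exact h2.congr fun n => by rw [map_sub, sub_add_cancel, mapp]

end pom

variable {G G' K : Type} [Group G] [TopologicalSpace G] [IsTopologicalGroup G]
  [LocallyCompactSpace G] [SecondCountableTopology G] [T2Space G] [MeasurableSpace G] [BorelSpace G]
  [Group G'] [TopologicalSpace G'] [IsTopologicalGroup G'] [LocallyCompactSpace G']
  [SecondCountableTopology G'] [T2Space G'] [MeasurableSpace G'] [BorelSpace G']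
  [NormedAddCommGroup K] [InnerProductSpace ℂ K] [CompleteSpace K] {μ : Measure G}
  [μ.IsHaarMeasure] {μ' : Measure G'} [μ'.IsHaarMeasure] {W : Set (K →L[ℂ] K)}

/-- dominated convergence for the trace -/
theorem tr_tendsto (S : Side μ W) {T : ℕ → K →L[ℂ] K} {c : ℝ} (hc : ∀ n, ‖T n‖ ≤ c)
    (hT : ∀ ξ, Tendsto (fun n => T n ξ) atTop (𝓝 0)) {h : K →L[ℂ] K} (hh : S.Tr h ≠ ∞) :
    Tendsto (fun n => S.Tr (T n * h)) atTop (𝓝 0) := by
  have := tendsto_lintegral_of_dominated_convergence (μ := μ)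
    (F := fun n g => ‖(T n * h) (S.π g S.Ω)‖ₑ ^ 2) (f := fun _ => 0)
    (fun g => ENNReal.ofReal c ^ 2 * ‖h (S.π g S.Ω)‖ₑ ^ 2) (fun n => S.meas_π _ _)
    (fun n => Eventually.of_forall fun g => by
      dsimp only
      rw [← mul_pow]
      refine pow_le_pow_left' (((T n).le_opENorm _).trans (mul_le_mul_left ?_ _)) 2
      rw [← ofReal_norm]
      exact ENNReal.ofReal_le_ofReal (hc n))
    (by
      rw [lintegral_const_mul _ (S.meas_π _ _)]
      exact ENNReal.mul_ne_top (ENNReal.pow_ne_top ENNReal.ofReal_ne_top) hh)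
    (Eventually.of_forall fun g => by
      have h1 := (ENNReal.continuous_pow 2).continuousAt.tendsto.comp
        (continuous_enorm.continuousAt.tendsto.comp (hT (h (S.π g S.Ω))))
      simpa [Function.comp_def] using h1)
  simpa [Side.Tr] using this

/-- **the core of the argument** -/
theorem d7_core (C : Cpl μ μ' W) {a v v' h : K →L[ℂ] K} {A u u' V V' : ℕ → K →L[ℂ] K}
    (ha : Cm W a) (hh : Cm W h) (hA : ∀ j, Cm W (A j)) (hu : ∀ j, Cm W (u j))
    (hu' : ∀ j, Cm W (u' j)) (hV : ∀ j, Cm W (V j)) (hV' : ∀ j, Cm W (V' j))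
    (nA : ∀ j, ‖A j‖ ≤ 1) (na : ‖a‖ ≤ 1) (nu : ∀ j, ‖u j‖ ≤ 1) (nu' : ∀ j, ‖u' j‖ ≤ 1)
    (nV : ∀ j, ‖V j‖ ≤ 1) (tA : ∀ ξ, Tendsto (fun j => A j ξ) atTop (𝓝 (a ξ)))
    (tV : ∀ ξ, Tendsto (fun j => V j ξ) atTop (𝓝 (v ξ)))
    (tV' : ∀ ξ, Tendsto (fun j => V' j ξ) atTop (𝓝 (v' ξ)))
    (iu : ∀ j, u' j * u j = 1) (iV : ∀ j, V j * V' j = 1)
    (c1 : ∀ j, A j * (u j * V j) = u j * V j * A j) (c2 : ∀ j, a * u j = u j * a)
    (c3 : ∀ j, h * u j = u j * h) (fin : C.t.Tr h ≠ ∞) : (v * a * v' - a) * h = 0 := by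
  have e : ∀ j, (V j * A j * V' j - a) * h = u' j * ((A j - a) * h * u j) := fun j => by
    have e1 : V j * A j * V' j = u' j * A j * u j := by
      calc V j * A j * V' j = u' j * (u j * V j * A j) * V' j := by
            simp only [← mul_assoc]; rw [iu, one_mul]
        _ = u' j * A j * u j * (V j * V' j) := by rw [← c1]; simp only [mul_assoc]
        _ = _ := by rw [iV, mul_one]
    have e2 : a = u' j * a * u j := by rw [mul_assoc, c2, ← mul_assoc, iu, one_mul]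
    rw [e1, mul_assoc (A j - a), c3, ← mul_assoc, ← mul_assoc, mul_sub, sub_mul (u' j * A j), ← e2]
  have t0 : Tendsto (fun j => C.t.Tr ((A j - a) * h)) atTop (𝓝 0) :=
    tr_tendsto C.t (c := 1 + 1) (fun j => (norm_sub_le _ _).trans (add_le_add (nA j) na))
      (fun ξ => by simpa using tendsto_sub_nhds_zero_iff.2 (tA ξ)) fin
  have n1 : ∀ x : K →L[ℂ] K, ‖x‖ ≤ 1 → ‖x‖ₑ ^ 2 ≤ 1 := fun x hx => by
    rw [← ofReal_norm]
    exact pow_le_one₀ zero_le (ENNReal.ofReal_le_one.2 hx)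
  have b : ∀ j, C.t.Tr ((V j * A j * V' j - a) * h) ≤ C.t.Tr ((A j - a) * h) := fun j => by
    rw [e]
    refine (C.t.Tr_mul_le _ _).trans ((mul_le_of_le_one_left' (n1 _ (nu' j))).trans ?_)
    exact (C.Tr_mul_le (cm_mul (cm_sub (hA j) ha) hh) (hu j)).trans
      (mul_le_of_le_one_left' (n1 _ (nu j)))
  have hB : ∀ j, Cm W ((V j * A j * V' j - a) * h) := fun j =>
    cm_mul (cm_sub (cm_mul (cm_mul (hV j) (hA j)) (hV' j)) ha) hh
  have ts : ∀ ξ, Tendsto (fun j => ((V j * A j * V' j - a) * h) ξ) atTop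
      (𝓝 (((v * a * v' - a) * h) ξ)) := fun ξ =>
    (tendsto_mul_ap (C := 1) (fun j => (norm_mul_le _ _).trans
      (mul_le_one₀ (nV j) (norm_nonneg _) (nA j))) (tendsto_mul_ap nV tV tA) tV' (h ξ)).sub_const _
  refine C.tr_zero _ (cm_of_weak (l := atTop) (Eventually.of_forall hB)
    fun ξ η => tendsto_const_nhds.inner (ts ξ)) (le_antisymm ?_ zero_le)
  refine ENNReal.le_of_forall_pos_le_add fun ε hε _ => ?_
  rw [zero_add]
  refine C.t.Tr_le_of_strong (Eventually.of_forall hB) ts (Eventually.frequently ?_)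
  filter_upwards [t0.eventually (Iic_mem_nhds (ENNReal.coe_pos.2 hε))] with j hj
  exact (b j).trans hj

variable {Z Z' : Type} [MeasurableSpace Z] [MeasurableSpace Z'] [MulAction G Z] [MulAction G' Z']

/-- A family of difference quotients of the translates of `ℓ` which separates the points of `U`. -/
structure Sep (G' : Type) [Group G'] {Z' : Type} [MeasurableSpace Z'] [MulAction G' Z']
    (ℓ : Z' → ℝ) (U : Set Z') (ι : Type) where
  /-- group elements -/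
  h : ι → ℕ → G'
  /-- inverse step sizes -/
  r : ℕ → ℝ
  /-- the derivatives -/
  D : ι → Z' → ℝ
  mD : ∀ i, Measurable (D i)
  tr : Tendsto r atTop atTop
  tD : ∀ i, ∀ ζ ∈ U, Tendsto (fun j => r j * (ℓ ((h i j)⁻¹ • ζ) - ℓ ζ)) atTop (𝓝 (D i ζ))
  sep : ∀ x ∈ U, ∀ y ∈ U, ℓ x = ℓ y → (∀ i, D i x = D i y) → x = y

theorem Sep.tendsto {ℓ : Z' → ℝ} {U : Set Z'} {ι : Type} (s : Sep G' ℓ U ι) (i : ι) {ζ : Z'}
    (hζ : ζ ∈ U) : Tendsto (fun j => ℓ ((s.h i j)⁻¹ • ζ)) atTop (𝓝 (ℓ ζ)) := by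
  have h := (s.tD i ζ hζ).mul s.tr.inv_tendsto_atTop
  rw [mul_zero] at h
  refine tendsto_sub_nhds_zero_iff.1 (h.congr' ?_)
  filter_upwards [s.tr.eventually_gt_atTop 0] with j hj
  simp only [Pi.inv_apply]
  field_simp

/-- covariance of an operator valued measure -/
def Cov (π : G' →* (K →L[ℂ] K)) (θ : POM Z' K) : Prop :=
  ∀ h g, Bd g → π h * θ.f g * π h⁻¹ = θ.f fun ζ => g (h⁻¹ • ζ)

theorem conj_comm (C : Cpl μ μ' W) (g : G) (h : G') (x : K →L[ℂ] K) :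
    C.s.π g * (C.t.π h * x * C.t.π h⁻¹) * C.s.π g⁻¹
      = C.t.π h * (C.s.π g * x * C.s.π g⁻¹) * C.t.π h⁻¹ := by
  simp only [← mul_assoc]
  rw [C.comm g h, mul_assoc _ (C.t.π h⁻¹), ← C.comm g⁻¹ h⁻¹, ← mul_assoc]

theorem comm_conj (S : Side μ W) (g : G) {x y : K →L[ℂ] K} (h : x * y = y * x) :
    (S.π g * x * S.π g⁻¹) * (S.π g * y * S.π g⁻¹) = (S.π g * y * S.π g⁻¹) * (S.π g * x * S.π g⁻¹) := by
  rw [← S.conj_mul, ← S.conj_mul, h]

/-- **All translates of `θ` commute.** -/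
theorem comm_all (C : Cpl μ μ' W) [StandardBorelSpace Z'] [MeasurableConstSMul G Z]
    [MeasurableConstSMul G' Z'] {θ : POM Z' K} {θ' : POM Z K} (hθ : θ.IsP) (hθ' : θ'.IsP)
    (cm : ∀ g, Bd g → Cm W (θ.f g)) (cm' : ∀ g, Bd g → Cm W (θ'.f g)) (cov : Cov C.t.π θ)
    (cov' : Cov C.s.π θ') {ℓ' : Z' → ℝ} {ℓ : Z → ℝ} (mℓ' : Measurable ℓ') (mℓ : Measurable ℓ)
    (magic : ∀ t, ∃ c : ℂ, θ.f (ex t ℓ') = c • θ'.f (ex t ℓ))
    {U : Set Z'} (hU : MeasurableSet U) (h1 : θ.P U = 1) {ι : Type} [Countable ι]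
    (s : Sep G' ℓ' U ι) {S : ℕ → Set Z'} {T : ℕ → Set Z} (mS : ∀ n, MeasurableSet (S n))
    (mT : ∀ n, MeasurableSet (T n)) (monS : Monotone S) (monT : Monotone T)
    (uS : θ.P (⋃ n, S n) = 1) (uT : θ'.P (⋃ n, T n) = 1)
    (hs : ∀ n m, C.t.Tr (θ.P (S n) * θ'.P (T m)) ≠ ∞) (g : G) {f f' : Z' → ℂ} (hf : Bd f)
    (hf' : Bd f') :
    (C.s.π g * θ.f f * C.s.π g⁻¹) * θ.f f' = θ.f f' * (C.s.π g * θ.f f * C.s.π g⁻¹) := by
  -- translates of `ℓ'`
  let L : G' → Z' → ℝ := fun h ζ => ℓ' (h⁻¹ • ζ)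
  have mL : ∀ h, Measurable (L h) := fun h => mℓ'.comp (measurable_const_smul _)
  have eL : ∀ h t, C.t.π h * θ.f (ex t ℓ') * C.t.π h⁻¹ = θ.f (ex t (L h)) := fun h t =>
    cov h _ (bd_ex t mℓ')
  -- columns
  have col0 : ∀ t f, Bd f → θ.f (ex t ℓ') * θ'.f f = θ'.f f * θ.f (ex t ℓ') := fun t f hf => by
    obtain ⟨c, hc⟩ := magic t
    rw [hc, smul_mul_assoc, mul_smul_comm, hθ'.comm (bd_ex t mℓ) hf]
  have col1 : ∀ s t, (C.s.π g * θ.f (ex s ℓ') * C.s.π g⁻¹) * θ.f (ex t ℓ')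
      = θ.f (ex t ℓ') * (C.s.π g * θ.f (ex s ℓ') * C.s.π g⁻¹) := fun s t => by
    obtain ⟨c, hc⟩ := magic s
    have b : Bd fun ζ => ex s ℓ (g⁻¹ • ζ) := (bd_ex s mℓ).comp (measurable_const_smul _)
    rw [hc, mul_smul_comm, smul_mul_assoc, cov' g _ (bd_ex s mℓ), smul_mul_assoc, mul_smul_comm,
      col0 t _ b]
  have col : ∀ h s t, (C.s.π g * θ.f (ex s (L h)) * C.s.π g⁻¹) * θ.f (ex t (L h))
      = θ.f (ex t (L h)) * (C.s.π g * θ.f (ex s (L h)) * C.s.π g⁻¹) := fun h s t => by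
    rw [← eL, ← eL, conj_comm]
    exact comm_conj C.t h (col1 s t)
  let ϑ : POM Z' K := θ.cj (C.s.π g) (C.s.π g⁻¹) (C.s.star_π g) (pi_mul_inv g)
  have hϑ : ϑ.IsP := hθ.cj _ _ (pi_inv_mul g)
  have ϑ1 : ϑ.P U = 1 := by
    change C.s.π g * θ.P U * C.s.π g⁻¹ = 1
    rw [h1, mul_one, pi_mul_inv]
  have cmϑ : ∀ f, Bd f → Cm W (ϑ.f f) := fun f hf => C.s.conj _ (cm f hf) g
  -- first step
  have step : ∀ s' i t, ϑ.f (ex s' ℓ') * θ.f (ex t (s.D i)) = θ.f (ex t (s.D i)) * ϑ.f (ex s' ℓ') := by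
    intro s' i t
    let Q : ℕ → Z' → ℝ := fun j ζ => s.r j * (L (s.h i j) ζ - ℓ' ζ)
    have mQ : ∀ j, Measurable (Q j) := fun j => ((mL _).sub mℓ').const_mul _
    have key : ∀ n m, (θ.f (ex t (s.D i)) * ϑ.f (ex s' ℓ') * θ.f (ex (-t) (s.D i))
        - ϑ.f (ex s' ℓ')) * (θ.P (S n) * θ'.P (T m)) = 0 := fun n m =>
      d7_core C (A := fun j => ϑ.f (ex s' (L (s.h i j))))
        (u := fun j => θ.f (ex (t * s.r j) ℓ')) (u' := fun j => θ.f (ex (-(t * s.r j)) ℓ'))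
        (V := fun j => θ.f (ex t (Q j))) (V' := fun j => θ.f (ex (-t) (Q j)))
        (cmϑ _ (bd_ex _ mℓ')) (cm_mul (cm _ (bd_ind1 (mS n))) (cm' _ (bd_ind1 (mT m))))
        (fun j => cmϑ _ (bd_ex _ (mL _))) (fun j => cm _ (bd_ex _ mℓ'))
        (fun j => cm _ (bd_ex _ mℓ')) (fun j => cm _ (bd_ex _ (mQ j)))
        (fun j => cm _ (bd_ex _ (mQ j))) (fun j => norm_f_ex_le _ _ (mL _))
        (norm_f_ex_le _ _ mℓ') (fun j => norm_f_ex_le _ _ mℓ') (fun j => norm_f_ex_le _ _ mℓ')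
        (fun j => norm_f_ex_le _ _ (mQ j))
        (hϑ.tendsto_strong_on hU ϑ1 (fun j => bd_ex _ (mL _)) (bd_ex _ mℓ') zero_le_one
          (fun j x => (norm_ex _ _ x).le) fun x hx => tendsto_ex _ (s.tendsto i hx))
        (hθ.tendsto_strong_on hU h1 (fun j => bd_ex _ (mQ j)) (bd_ex _ (s.mD i)) zero_le_one
          (fun j x => (norm_ex _ _ x).le) fun x hx => tendsto_ex _ (s.tD i x hx))
        (hθ.tendsto_strong_on hU h1 (fun j => bd_ex _ (mQ j)) (bd_ex _ (s.mD i)) zero_le_one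
          (fun j x => (norm_ex _ _ x).le) fun x hx => tendsto_ex _ (s.tD i x hx))
        (fun j => hθ.ex_neg_mul _ mℓ') (fun j => hθ.ex_mul_neg _ (mQ j))
        (fun j => by
          have e : θ.f (ex (t * s.r j) ℓ') * θ.f (ex t (Q j))
              = θ.f (ex (t * s.r j) (L (s.h i j))) := by
            rw [← hθ.mul _ _ (bd_ex _ mℓ') (bd_ex _ (mQ j))]
            congr 1
            ext ζ
            simp only [ex, Q, Pi.mul_apply, ← Complex.exp_add]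
            congr 1
            push_cast
            ring
          rw [e]
          exact col _ _ _)
        (fun j => col1 _ _)
        (fun j => by
          rw [mul_assoc, POM.P, POM.P, ← col0 _ _ (bd_ind1 (mT m)), ← mul_assoc,
            hθ.comm (bd_ind1 (mS n)) (bd_ex _ mℓ'), mul_assoc])
        (hs n m)
    have key2 : θ.f (ex t (s.D i)) * ϑ.f (ex s' ℓ') * θ.f (ex (-t) (s.D i)) - ϑ.f (ex s' ℓ') = 0 := by
      set X := θ.f (ex t (s.D i)) * ϑ.f (ex s' ℓ') * θ.f (ex (-t) (s.D i)) - ϑ.f (ex s' ℓ')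
      ext ξ
      have a1 : ∀ n, X (θ.P (S n) ξ) = 0 := fun n => by
        have t1 := θ'.tendsto_P_iUnion mT monT ξ
        rw [uT] at t1
        have t2 := ((X * θ.P (S n)).continuous.tendsto _).comp t1
        refine tendsto_nhds_unique t2 (tendsto_const_nhds.congr fun m => ?_)
        exact (ap_eq (key n m) ξ).symm
      have t1 := θ.tendsto_P_iUnion mS monS ξ
      rw [uS] at t1
      exact tendsto_nhds_unique ((X.continuous.tendsto _).comp t1)
        (tendsto_const_nhds.congr fun n => (a1 n).symm)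
    rw [← sub_eq_zero.1 key2, mul_assoc, mul_assoc, hθ.ex_neg_mul _ (s.mD i), mul_one,
      sub_eq_zero.1 key2]
  have step2 : ∀ s' f, Bd f → ϑ.f (ex s' ℓ') * θ.f f = θ.f f * ϑ.f (ex s' ℓ') := fun s' f hf =>
    hθ.comm_of_sep hU h1 (ι := Option ι) (D := fun o => o.elim ℓ' s.D)
      (fun o => by cases o; exacts [mℓ', s.mD _])
      (fun x hx y hy e => s.sep x hx y hy (e none) fun i => e (some i))
      (fun o t => by cases o; exacts [col1 _ _, step _ _ _]) hf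
  have step3 : ∀ h s', θ.f f' * ϑ.f (ex s' (L h)) = ϑ.f (ex s' (L h)) * θ.f f' := fun h s' => by
    have b : Bd fun ζ => f' (h • ζ) := hf'.comp (measurable_const_smul _)
    have e : θ.f f' = C.t.π h * θ.f (fun ζ => f' (h • ζ)) * C.t.π h⁻¹ := by
      rw [cov h _ b]; simp
    have e2 : ϑ.f (ex s' (L h)) = C.t.π h * ϑ.f (ex s' ℓ') * C.t.π h⁻¹ := by
      rw [POM.cj_f, POM.cj_f, ← eL, conj_comm]
    rw [e, e2]
    exact comm_conj C.t h (step2 s' _ b).symm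
  refine (hϑ.comm_of_sep hU ϑ1 (ι := Option (ι × ℕ))
    (D := fun o => o.elim (L 1) fun p => L (s.h p.1 p.2))
    (fun o => by cases o; exacts [mL _, mL _]) (fun x hx y hy e => ?_)
    (fun o t => by cases o; exacts [step3 _ _, step3 _ _]) hf).symm
  have e0 : ℓ' x = ℓ' y := by simpa [L] using e none
  refine s.sep x hx y hy e0 fun i => tendsto_nhds_unique (s.tD i x hx) ((s.tD i y hy).congr fun j => ?_)
  rw [e0]
  exact congrArg (fun w => s.r j * (w - ℓ' y)) (e (some (i, j))).symm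

end Vale.Agent.P092RD
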