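import Vale.Agent.P092RD.D7

/-!
P092 (helper77): null sets of covariant measures, the scalar relation between a boundary measure
and its flip, Hilbert-Schmidt products.
-/

set_option linter.all false

open scoped InnerProductSpace ENNReal NNReal
open MeasureTheory Filter Topology ContinuousLinearMap Set

namespace Vale.Agent.P092RD

open Vale.Agent.P092CP
open Vale.Agent.P092.RC (Cm)
open POM (ex bd_ex norm_ex ex_add star_ex)

variable {G G' K : Type} [Group G] [TopologicalSpace G] [IsTopologicalGroup G]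
  [LocallyCompactSpace G] [SecondCountableTopology G] [T2Space G] [MeasurableSpace G] [BorelSpace G]
  [Group G'] [TopologicalSpace G'] [IsTopologicalGroup G'] [LocallyCompactSpace G']
  [SecondCountableTopology G'] [T2Space G'] [MeasurableSpace G'] [BorelSpace G']
  [NormedAddCommGroup K] [InnerProductSpace ℂ K] [CompleteSpace K] {μ : Measure G}
  [μ.IsHaarMeasure] {μ' : Measure G'} [μ'.IsHaarMeasure] {W : Set (K →L[ℂ] K)}
  {Z Z' : Type} [MeasurableSpace Z] [MeasurableSpace Z'] [MulAction G Z] [MulAction G' Z']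

theorem Cov.P {θ : POM Z K} {π : G →* (K →L[ℂ] K)} (cov : Cov π θ) (g : G) {A : Set Z}
    (hA : MeasurableSet A) : π g * θ.P A * π g⁻¹ = θ.P ((fun ζ => g⁻¹ • ζ) ⁻¹' A) :=
  cov g _ (bd_ind1 hA)

theorem Cov.ν [MeasurableConstSMul G Z] {θ : POM Z K} (S : Side μ W) (cov : Cov S.π θ) (g : G)
    {A : Set Z} (hA : MeasurableSet A) (ξ : K) :
    θ.ν (S.π g⁻¹ ξ) A = θ.ν ξ ((fun ζ => g⁻¹ • ζ) ⁻¹' A) := by
  have h1 := θ.inner_P (measurable_const_smul g⁻¹ hA) ξ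
  rw [← cov.P g hA, mapp, mapp, ← adjoint_inner_left, S.adj, θ.inner_P hA] at h1
  exact (measureReal_eq_measureReal_iff (measure_ne_top _ _) (measure_ne_top _ _)).1
    (by exact_mod_cast h1)

/-- **sets which almost every translate of a point avoids are null** -/
theorem null [MeasurableSMul₂ G Z] {θ : POM Z K} (S : Side μ W) (cov : Cov S.π θ) {N : Set Z}
    (hN : MeasurableSet N) (h0 : ∀ ζ : Z, μ {g | g⁻¹ • ζ ∈ N} = 0) : θ.P N = 0 := by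
  refine (θ.P_eq_zero_iff hN).2 fun ξ => ?_
  have hm : MeasurableSet {p : G × Z | p.1⁻¹ • p.2 ∈ N} :=
    (measurable_fst.inv.smul measurable_snd) hN
  have h1 : ∀ᵐ g ∂μ, θ.ν ξ {ζ | g⁻¹ • ζ ∈ N} = 0 := by
    have h2 : (μ.prod (θ.ν ξ)) {p : G × Z | p.1⁻¹ • p.2 ∈ N} = 0 := by
      rw [Measure.prod_apply_symm hm]
      simp [h0]
    exact Measure.measure_prod_null hm |>.1 h2
  have hc : Continuous fun g => ⟪S.π g⁻¹ ξ, θ.P N (S.π g⁻¹ ξ)⟫_ℂ :=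
    ((S.cont ξ).comp continuous_inv).inner
      ((θ.P N).continuous.comp ((S.cont ξ).comp continuous_inv))
  have h3 : (fun g => ⟪S.π g⁻¹ ξ, θ.P N (S.π g⁻¹ ξ)⟫_ℂ) = fun _ => 0 :=
    (hc.ae_eq_iff_eq μ continuous_const).1 (h1.mono fun g hg => by
      dsimp only
      rw [θ.inner_P hN, Measure.real, cov.ν S g hN]
      change (((θ.ν ξ {ζ | g⁻¹ • ζ ∈ N}).toReal : ℝ) : ℂ) = 0
      rw [hg]; simp)
  have h4 := congrFun h3 1
  rw [inv_one, map_one, oapp, θ.inner_P hN] at h4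
  exact (measureReal_eq_zero_iff (measure_ne_top _ _)).1 (by exact_mod_cast h4)

theorem conull [MeasurableSMul₂ G Z] {θ : POM Z K} (hθ : θ.IsP) (S : Side μ W) (cov : Cov S.π θ)
    {U : Set Z} (hU : MeasurableSet U) (h0 : ∀ ζ : Z, μ {g | g⁻¹ • ζ ∉ U} = 0) : θ.P U = 1 := by
  rw [← compl_compl U, hθ.P_compl hU.compl, null S cov hU.compl h0, sub_zero]

theorem f_ex_shift {θ : POM Z K} (hθ : θ.IsP) {U : Set Z} (hU : MeasurableSet U) (h1 : θ.P U = 1)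
    {ℓ ℓ₁ : Z → ℝ} (m : Measurable ℓ) (m₁ : Measurable ℓ₁) {s : ℝ} (e : ∀ ζ ∈ U, ℓ₁ ζ = ℓ ζ + s)
    (t : ℝ) : θ.f (ex t ℓ₁) = Complex.exp (t * s * Complex.I) • θ.f (ex t ℓ) := by
  rw [← θ.smul _ (bd_ex t m)]
  refine hθ.f_congr_on hU h1 (bd_ex t m₁) (bd_smul _ (bd_ex t m)) fun ζ hζ => ?_
  simp only [ex, e ζ hζ, Pi.smul_apply, smul_eq_mul, ← Complex.exp_add]
  congr 1
  push_cast
  ring

/-- `g` shifts the height `ℓ'` of `θ` and the function `ℓ` by the same amount -/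
def Shift (π : G →* (K →L[ℂ] K)) (θ : POM Z' K) (ℓ' : Z' → ℝ) (U' : Set Z') (ℓ : Z → ℝ)
    (U : Set Z) (g : G) : Prop :=
  ∃ (s : ℝ) (r : Z' → Z'), Measurable r ∧ (∀ F, Bd F → π g * θ.f F * π g⁻¹ = θ.f (F ∘ r)) ∧
    (∀ ζ ∈ U', ℓ' (r ζ) = ℓ' ζ + s) ∧ ∀ ζ ∈ U, ℓ (g⁻¹ • ζ) = ℓ ζ + s

theorem shift_fix [MeasurableConstSMul G Z] (S : Side μ W) {θ : POM Z' K} {θ' : POM Z K}
    (hθ : θ.IsP) (hθ' : θ'.IsP) (cov' : Cov S.π θ') {ℓ' : Z' → ℝ} {ℓ : Z → ℝ} (mℓ' : Measurable ℓ')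
    (mℓ : Measurable ℓ) {U' : Set Z'} {U : Set Z} (hU' : MeasurableSet U') (hU : MeasurableSet U)
    (h1 : θ.P U' = 1) (h2 : θ'.P U = 1) {g : G} (hg : Shift S.π θ ℓ' U' ℓ U g) (t : ℝ) :
    ∃ c : ℂ, S.π g * θ.f (ex t ℓ') * S.π g⁻¹ = c • θ.f (ex t ℓ') ∧
      S.π g * θ'.f (ex (-t) ℓ) * S.π g⁻¹ = c⁻¹ • θ'.f (ex (-t) ℓ) ∧ c ≠ 0 := by
  obtain ⟨s, r, hr, e1, e2, e3⟩ := hg
  refine ⟨Complex.exp (t * s * Complex.I), ?_, ?_, Complex.exp_ne_zero _⟩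
  · rw [e1 _ (bd_ex t mℓ')]
    exact f_ex_shift hθ hU' h1 mℓ' (mℓ'.comp hr) e2 t
  · rw [cov' g _ (bd_ex _ mℓ), ← Complex.exp_neg]
    have := f_ex_shift hθ' hU h2 mℓ (mℓ.comp (measurable_const_smul g⁻¹)) e3 (-t)
    rw [show -(t * s * Complex.I) = ((-t : ℝ) : ℂ) * s * Complex.I by push_cast; ring, ← this]
    rfl

theorem comm_of_conj {π : G →* (K →L[ℂ] K)} {x : K →L[ℂ] K} {g : G} (h : π g * x * π g⁻¹ = x) :
    x * π g = π g * x := by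
  conv_lhs => rw [← h, mul_assoc, pi_inv_mul, mul_one]

theorem conj_of_comm {π : G →* (K →L[ℂ] K)} {x : K →L[ℂ] K} {g : G} (h : x * π g = π g * x) :
    π g * x * π g⁻¹ = x := by
  rw [← h, mul_assoc, pi_mul_inv, mul_one]

/-- **the magic relation at the base points** -/
theorem magic0 (C : Cpl μ μ' W) [MeasurableConstSMul G Z] [MeasurableConstSMul G' Z']
    {θ : POM Z' K} {θ' : POM Z K} (hθ : θ.IsP) (hθ' : θ'.IsP)
    (cm : ∀ g, Bd g → Cm W (θ.f g)) (cm' : ∀ g, Bd g → Cm W (θ'.f g)) (cov : Cov C.t.π θ)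
    (cov' : Cov C.s.π θ') {ℓ' : Z' → ℝ} {ℓ : Z → ℝ} (mℓ' : Measurable ℓ') (mℓ : Measurable ℓ)
    {U' : Set Z'} {U : Set Z} (hU' : MeasurableSet U') (hU : MeasurableSet U)
    (h1 : θ.P U' = 1) (h2 : θ'.P U = 1) {S : Set G} {S' : Set G'}
    (hS : ∀ g ∈ S, Shift C.s.π θ ℓ' U' ℓ U g) (hS' : ∀ h ∈ S', Shift C.t.π θ' ℓ U ℓ' U' h)
    (erg : ∀ x, Cm W x → (∀ g ∈ S, x * C.s.π g = C.s.π g * x) →
      (∀ h ∈ S', x * C.t.π h = C.t.π h * x) → ∃ c : ℂ, x = c • (1 : K →L[ℂ] K)) (t : ℝ) :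
    ∃ c : ℂ, θ.f (ex t ℓ') = c • θ'.f (ex t ℓ) := by
  obtain ⟨c, hc⟩ := erg (θ.f (ex t ℓ') * θ'.f (ex (-t) ℓ))
    (cm_mul (cm _ (bd_ex _ mℓ')) (cm' _ (bd_ex _ mℓ))) (fun g hg => comm_of_conj (by
      obtain ⟨c, e1, e2, hc⟩ := shift_fix C.s hθ hθ' cov' mℓ' mℓ hU' hU h1 h2 (hS g hg) t
      rw [C.s.conj_mul, e1, e2, smul_mul_smul_comm, mul_inv_cancel₀ hc, one_smul]))
    (fun h hh => comm_of_conj (by
      obtain ⟨c, e1, e2, hc⟩ := shift_fix C.t hθ' hθ cov mℓ mℓ' hU hU' h2 h1 (hS' h hh) (-t)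
      rw [neg_neg] at e2
      rw [C.t.conj_mul, e1, e2, smul_mul_smul_comm, inv_mul_cancel₀ hc, one_smul]))
  refine ⟨c, ?_⟩
  rw [← mul_one (θ.f (ex t ℓ')), ← hθ'.ex_neg_mul t mℓ, ← mul_assoc, hc, smul_mul_assoc, one_mul]

theorem s_tr_adj (C : Cpl μ μ' W) {T : K →L[ℂ] K} (hT : Cm W T) : C.s.Tr (star T) = C.s.Tr T :=
  C.swap.tr_adj T hT

/-- **Hilbert-Schmidt products**: `x` is invariant under `N` with finite trace per unit volume of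
`N`, and the orbits of `N` meet `T` in bounded measure. -/
theorem hs_of_trN (C : Cpl μ μ' W) [MeasurableSMul₂ G Z] {θ' : POM Z K} (hθ' : θ'.IsP)
    (cm' : ∀ g, Bd g → Cm W (θ'.f g)) (cov' : Cov C.s.π θ') {N : Type} [MeasurableSpace N]
    (ν : Measure N) [SFinite ν] {i : N → G} (hi : Measurable i) {χ : G → ℂ} (hχ : Bd χ)
    (h1 : ∀ᵐ y ∂μ, 1 ≤ ∫⁻ n, ‖χ (i n * y)‖ₑ ^ 2 ∂ν) {x : K →L[ℂ] K} (hx : Cm W x)
    (inv : ∀ n, x * C.s.π (i n) = C.s.π (i n) * x) (fin : C.s.Tr (star x * C.s.m (star χ)) ≠ ∞)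
    {T : Set Z} (hT : MeasurableSet T) {c : ℝ≥0∞} (hc : c ≠ ∞)
    (bd : ∀ ζ : Z, ν {n | (i n)⁻¹ • ζ ∈ T} ≤ c) : C.t.Tr (x * θ'.P T) ≠ ∞ := by
  have cT := cm' _ (bd_ind1 hT)
  have hB : Cm W (x * θ'.P T) := cm_mul hx cT
  rw [← C.Tr_fin hB]
  have bn : ∀ n, Bd fun y => χ (i n * y) := fun n => hχ.comp (measurable_const_mul _)
  have mχ : Measurable fun p : N × G => ‖χ (i p.1 * p.2)‖ₑ ^ 2 :=
    (hχ.meas.comp ((hi.comp measurable_fst).mul measurable_snd)).enorm.pow_const 2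
  -- unfolding along `N`
  have a1 : ∀ η : K, ‖η‖ₑ ^ 2 ≤ ∫⁻ n, ‖C.s.m (fun y => χ (i n * y)) η‖ₑ ^ 2 ∂ν := fun η => by
    simp_rw [fun n => C.s.enorm_m (bn n) η]
    rw [lintegral_lintegral_swap
      (mχ.aemeasurable.mul ((meas_sq (C.s.U η)).comp_quasiMeasurePreserving
        Measure.quasiMeasurePreserving_snd)), C.s.enorm_U]
    refine lintegral_mono_ae (h1.mono fun y hy => ?_)
    exact (le_mul_of_one_le_left' hy).trans_eq
      (lintegral_mul_const _ (mχ.comp measurable_prodMk_right)).symm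
  have e1 : ∀ n, C.s.m (fun y => χ (i n * y)) = C.s.π (i n)⁻¹ * C.s.m χ * C.s.π (i n) := fun n => by
    have := C.s.cov hχ (i n)⁻¹
    rw [inv_inv] at this
    exact this.symm
  let A : N → Set Z := fun n => (fun ζ => (i n)⁻¹ • ζ) ⁻¹' T
  have mA : MeasurableSet {p : N × Z | (i p.1)⁻¹ • p.2 ∈ T} :=
    ((hi.comp measurable_fst).inv.smul measurable_snd) hT
  have a2 : ∀ n, C.s.Tr (C.s.m (fun y => χ (i n * y)) * (x * θ'.P T))
      = C.s.Tr (θ'.P (A n) * (star x * C.s.m (star χ))) := fun n => by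
    have mAn : MeasurableSet (A n) := measurable_const_smul _ hT
    have c1 : Cm W (C.s.m χ * (x * θ'.P (A n))) :=
      cm_mul (C.s.cm_m hχ) (cm_mul hx (cm' _ (bd_ind1 mAn)))
    have e2 : C.s.m (fun y => χ (i n * y)) * (x * θ'.P T)
        = C.s.π (i n)⁻¹ * (C.s.m χ * (x * θ'.P (A n))) * C.s.π (i n)⁻¹⁻¹ := by
      rw [e1, inv_inv, ← cov'.P (i n) hT]
      simp only [mul_assoc]
      rw [pi_inv_mul, mul_one, ← mul_assoc (C.s.π (i n)) x, ← inv, mul_assoc]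
    rw [e2, C.s.Tr_conj, ← s_tr_adj C c1, star_mul, star_mul, θ'.star_P mAn, C.s.star_m hχ,
      mul_assoc]
  have a3 : ∀ η : K, ∫⁻ n, ‖θ'.P (A n) η‖ₑ ^ 2 ∂ν ≤ c * ‖η‖ₑ ^ 2 := fun η => by
    simp_rw [fun n => hθ'.enorm_P_sq (show MeasurableSet (A n) from measurable_const_smul _ hT) η]
    have := Measure.prod_apply (μ := ν) (ν := θ'.ν η) mA
    refine (le_of_eq this.symm).trans ?_
    rw [Measure.prod_apply_symm mA, ← hθ'.ν_univ, ← lintegral_const]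
    exact lintegral_mono fun ζ => bd ζ
  have cY : Cm W (star x * C.s.m (star χ)) := cm_mul (C.adj_cm hx) (C.s.cm_m hχ.star)
  have := C.s.cnt
  have m1 : ∀ η : K, Measurable fun n => ‖C.s.m (fun y => χ (i n * y)) η‖ₑ ^ 2 := fun η => by
    simp_rw [e1, mapp, C.s.enorm_π]
    exact (C.s.meas_π _ η).comp hi
  have m2 : ∀ η : K, Measurable fun n => ‖θ'.P (A n) η‖ₑ ^ 2 := fun η => by
    simp_rw [fun n => hθ'.enorm_P_sq (show MeasurableSet (A n) from measurable_const_smul _ hT) η]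
    exact measurable_measure_prodMk_left mA
  refine ne_top_of_le_ne_top (ENNReal.mul_ne_top hc fin) ?_
  calc C.s.Tr (x * θ'.P T)
      ≤ μ C.s.D * ∑' γ, ∫⁻ n, ‖C.s.m (fun y => χ (i n * y)) ((x * θ'.P T) (C.s.Om γ))‖ₑ ^ 2 ∂ν := by
        rw [C.s.Tr_eq_tsum hB]
        exact mul_le_mul_right (ENNReal.tsum_le_tsum fun γ => a1 _) _
    _ = ∫⁻ n, C.s.Tr (C.s.m (fun y => χ (i n * y)) * (x * θ'.P T)) ∂ν := by
        rw [← lintegral_tsum fun γ => (m1 _).aemeasurable, ← lintegral_const_mul' _ _ C.s.vol]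
        exact lintegral_congr fun n => (C.s.Tr_eq_tsum (cm_mul (C.s.cm_m (bn n)) hB)).symm
    _ = μ C.s.D * ∑' γ, ∫⁻ n, ‖θ'.P (A n) ((star x * C.s.m (star χ)) (C.s.Om γ))‖ₑ ^ 2 ∂ν := by
        rw [← lintegral_tsum fun γ => (m2 _).aemeasurable, ← lintegral_const_mul' _ _ C.s.vol]
        refine lintegral_congr fun n => (a2 n).trans (C.s.Tr_eq_tsum (cm_mul ?_ cY))
        exact cm' _ (bd_ind1 (measurable_const_smul _ hT))
    _ ≤ _ := by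
        rw [C.s.Tr_eq_tsum cY, mul_left_comm, ← ENNReal.tsum_mul_left (a := c)]
        exact mul_le_mul_right (ENNReal.tsum_le_tsum fun γ => a3 _) _

end Vale.Agent.P092RD
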