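import Vale.Agent.P092CP.Defs
import Vale.Agent.P092.H466.Pvm2

/-!
P092 (helper77): positive operator valued measures and their bounded Borel calculus.
-/

set_option linter.all false

open scoped InnerProductSpace ENNReal NNReal ComplexConjugate
open MeasureTheory Filter Topology ContinuousLinearMap Set

namespace Vale.Agent.P092RD

open Vale.Agent.P092CP (Bd)
open Vale.Agent.P092.H466 (polar ext_quad exists_wlim norm_le_of_quad)

section bd

variable {Y : Type} [MeasurableSpace Y] {f g : Y → ℂ}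

theorem bd_const (c : ℂ) : Bd fun _ : Y => c := ⟨measurable_const, ‖c‖, fun _ => le_rfl⟩

theorem bd_one : Bd (1 : Y → ℂ) := bd_const 1

theorem bd_zero : Bd (0 : Y → ℂ) := bd_const 0

theorem bd_nonneg (hf : Bd f) : ∃ C : ℝ, 0 ≤ C ∧ ∀ x, ‖f x‖ ≤ C := by
  obtain ⟨C, hC⟩ := hf.bdd
  exact ⟨max C 0, le_max_right _ _, fun x => (hC x).trans (le_max_left _ _)⟩

theorem bd_add (hf : Bd f) (hg : Bd g) : Bd (f + g) := by
  obtain ⟨C, hC⟩ := hf.bdd
  obtain ⟨D, hD⟩ := hg.bdd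
  exact ⟨hf.meas.add hg.meas, C + D, fun x => (norm_add_le _ _).trans (add_le_add (hC x) (hD x))⟩

theorem bd_sub (hf : Bd f) (hg : Bd g) : Bd (f - g) := by
  obtain ⟨C, hC⟩ := hf.bdd
  obtain ⟨D, hD⟩ := hg.bdd
  exact ⟨hf.meas.sub hg.meas, C + D, fun x => (norm_sub_le _ _).trans (add_le_add (hC x) (hD x))⟩

theorem bd_mul (hf : Bd f) (hg : Bd g) : Bd (f * g) := by
  obtain ⟨C, hC0, hC⟩ := bd_nonneg hf
  obtain ⟨D, hD⟩ := hg.bdd
  exact ⟨hf.meas.mul hg.meas, C * D, fun x => by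
    rw [Pi.mul_apply, norm_mul]
    exact mul_le_mul (hC x) (hD x) (norm_nonneg _) hC0⟩

theorem bd_smul (c : ℂ) (hf : Bd f) : Bd (c • f) := bd_mul (bd_const c) hf

theorem bd_star (hf : Bd f) : Bd (star f) := by
  obtain ⟨C, hC⟩ := hf.bdd
  exact ⟨Complex.continuous_conj.measurable.comp hf.meas, C, fun x => by
    rw [Pi.star_apply, norm_star]; exact hC x⟩

theorem bd_ind {A : Set Y} (hA : MeasurableSet A) (hf : Bd f) : Bd (A.indicator f) := by
  obtain ⟨C, hC0, hC⟩ := bd_nonneg hf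
  exact ⟨hf.meas.indicator hA, C, fun x => by
    by_cases hx : x ∈ A
    · rw [indicator_of_mem hx]; exact hC x
    · rw [indicator_of_notMem hx, norm_zero]; exact hC0⟩

theorem bd_ind1 {A : Set Y} (hA : MeasurableSet A) : Bd (A.indicator (1 : Y → ℂ)) :=
  bd_ind hA bd_one

theorem bd_comp {Z : Type} [MeasurableSpace Z] {r : Z → Y} (hf : Bd f) (hr : Measurable r) :
    Bd (f ∘ r) := by
  obtain ⟨C, hC⟩ := hf.bdd
  exact ⟨hf.meas.comp hr, C, fun x => hC _⟩

theorem bd_real {a : Y → ℝ} (ha : Measurable a) {C : ℝ} (hC : ∀ x, |a x| ≤ C) :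
    Bd fun x => (a x : ℂ) :=
  ⟨Complex.measurable_ofReal.comp ha, C, fun x => by
    rw [Complex.norm_real, Real.norm_eq_abs]; exact hC x⟩

theorem bd_sum {ι : Type*} (s : Finset ι) {F : ι → Y → ℂ} (h : ∀ i ∈ s, Bd (F i)) :
    Bd (∑ i ∈ s, F i) :=
  Finset.sum_induction F Bd (fun _ _ => bd_add) bd_zero h

theorem bd_prod {ι : Type*} (s : Finset ι) {F : ι → Y → ℂ} (h : ∀ i ∈ s, Bd (F i)) :
    Bd (∏ i ∈ s, F i) :=
  Finset.prod_induction F Bd (fun _ _ => bd_mul) bd_one h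

theorem bd_int (hf : Bd f) (μ : Measure Y) [IsFiniteMeasure μ] : Integrable f μ := by
  obtain ⟨C, hC⟩ := hf.bdd
  exact Integrable.of_bound hf.meas.aestronglyMeasurable C (Eventually.of_forall hC)

theorem bd_int_sq (hf : Bd f) (μ : Measure Y) [IsFiniteMeasure μ] :
    Integrable (fun x => ‖f x‖ ^ 2) μ := by
  obtain ⟨C, hC0, hC⟩ := bd_nonneg hf
  refine Integrable.of_bound (hf.meas.norm.pow_const 2).aestronglyMeasurable (C ^ 2)
    (Eventually.of_forall fun x => ?_)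
  rw [Real.norm_of_nonneg (by positivity)]
  exact pow_le_pow_left₀ (norm_nonneg _) (hC x) 2

/-- induction on bounded measurable functions with values in a separable normed group -/
theorem ind_gen {E : Type} [NormedAddCommGroup E] [MeasurableSpace E] [BorelSpace E]
    [SecondCountableTopology E] {P : (Y → E) → Prop}
    (ind : ∀ (c : E) (A : Set Y), MeasurableSet A → P (A.indicator fun _ => c))
    (add : ∀ f g : Y → E, Measurable f → Measurable g → (∃ C, ∀ x, ‖f x‖ ≤ C) →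
      (∃ C, ∀ x, ‖g x‖ ≤ C) → Disjoint (Function.support f) (Function.support g) → P f → P g →
      P (f + g))
    (lim : ∀ (F : ℕ → Y → E) (g : Y → E) (C : ℝ), (∀ n, Measurable (F n)) → Measurable g →
      (∀ n x, ‖F n x‖ ≤ C) → (∀ x, Tendsto (fun n => F n x) atTop (𝓝 (g x))) → (∀ n, P (F n)) →
      P g)
    (f : Y → E) (hf : Measurable f) (hb : ∃ C, ∀ x, ‖f x‖ ≤ C) : P f := by
  obtain ⟨C, hC⟩ := hb
  have hs : ∀ s : SimpleFunc Y E, P s := by
    intro s
    induction s using SimpleFunc.induction with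
    | const c hs =>
      rename_i A
      have := ind c A hs
      convert this using 1
      ext x
      by_cases hx : x ∈ A <;> simp [hx]
    | add hd h1 h2 =>
      rename_i a b
      exact add a b a.measurable b.measurable a.exists_forall_norm_le b.exists_forall_norm_le hd
        h1 h2
  refine lim (fun n => SimpleFunc.approxOn f hf univ 0 (mem_univ _) n) f (C + C)
    (fun n => SimpleFunc.measurable _) hf (fun n x => ?_) (fun x => ?_) (fun n => hs _)
  · exact (SimpleFunc.norm_approxOn_zero_le hf (mem_univ _) x n).trans (add_le_add (hC x) (hC x))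
  · exact SimpleFunc.tendsto_approxOn hf (mem_univ _) (by simp)

/-- induction on bounded Borel functions -/
theorem bd_induction {P : (Y → ℂ) → Prop}
    (ind : ∀ (c : ℂ) (A : Set Y), MeasurableSet A → P (c • A.indicator 1))
    (add : ∀ f g, Bd f → Bd g → P f → P g → P (f + g))
    (lim : ∀ (F : ℕ → Y → ℂ) (g : Y → ℂ) (C : ℝ), (∀ n, Bd (F n)) → Bd g →
      (∀ n x, ‖F n x‖ ≤ C) → (∀ x, Tendsto (fun n => F n x) atTop (𝓝 (g x))) → (∀ n, P (F n)) →
      P g) (f : Y → ℂ) (hf : Bd f) : P f := by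
  refine ind_gen (P := P) (fun c A hA => ?_)
    (fun f g h1 h2 h3 h4 _ => add f g ⟨h1, h3⟩ ⟨h2, h4⟩)
    (fun F g C h1 h2 h3 h4 => lim F g C (fun n => ⟨h1 n, C, h3 n⟩) ⟨h2, C, fun x =>
      le_of_tendsto (h4 x).norm (Eventually.of_forall fun n => h3 n x)⟩ h3 h4) f hf.meas hf.bdd
  convert ind c A hA using 1
  ext x
  by_cases hx : x ∈ A <;> simp [hx]

end bd

/-- A positive (contractive) operator valued measure with its calculus. -/
structure POM (Y K : Type) [MeasurableSpace Y] [NormedAddCommGroup K] [InnerProductSpace ℂ K] where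
  /-- the calculus -/
  f : (Y → ℂ) → (K →L[ℂ] K)
  /-- the spectral measures -/
  ν : K → Measure Y
  fin : ∀ ξ, ν ξ univ ≤ ‖ξ‖ₑ ^ 2
  rep : ∀ g, Bd g → ∀ ξ, ⟪ξ, f g ξ⟫_ℂ = ∫ y, g y ∂ν ξ

namespace POM

variable {Y K : Type} [MeasurableSpace Y] [NormedAddCommGroup K] [InnerProductSpace ℂ K]
  (θ : POM Y K) {a b g h : Y → ℂ} {A B : Set Y}

instance (ξ : K) : IsFiniteMeasure (θ.ν ξ) :=
  ⟨(θ.fin ξ).trans_lt (ENNReal.pow_lt_top enorm_lt_top)⟩

/-- the operator of a set -/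
noncomputable def P (A : Set Y) : K →L[ℂ] K := θ.f (A.indicator 1)

/-- projection valued -/
structure IsP : Prop where
  one : θ.f 1 = 1
  mul : ∀ g h, Bd g → Bd h → θ.f (g * h) = θ.f g * θ.f h

theorem real_univ_le (ξ : K) : (θ.ν ξ).real univ ≤ ‖ξ‖ ^ 2 := by
  have := ENNReal.toReal_mono (ENNReal.pow_ne_top enorm_ne_top) (θ.fin ξ)
  simpa [Measure.real] using this

theorem add (hg : Bd g) (hh : Bd h) : θ.f (g + h) = θ.f g + θ.f h :=
  ext_quad fun ξ => by
    rw [add_apply, inner_add_right, θ.rep _ (bd_add hg hh), θ.rep _ hg, θ.rep _ hh,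
      ← integral_add (bd_int hg _) (bd_int hh _)]
    rfl

theorem sub (hg : Bd g) (hh : Bd h) : θ.f (g - h) = θ.f g - θ.f h :=
  ext_quad fun ξ => by
    rw [sub_apply, inner_sub_right, θ.rep _ (bd_sub hg hh), θ.rep _ hg, θ.rep _ hh,
      ← integral_sub (bd_int hg _) (bd_int hh _)]
    rfl

theorem smul (c : ℂ) (hg : Bd g) : θ.f (c • g) = c • θ.f g :=
  ext_quad fun ξ => by
    rw [smul_apply, inner_smul_right, θ.rep _ (bd_smul c hg), θ.rep _ hg, ← integral_const_mul]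
    rfl

theorem zero : θ.f 0 = 0 :=
  ext_quad fun ξ => by rw [θ.rep _ bd_zero]; simp

theorem sum {ι : Type*} (s : Finset ι) {F : ι → Y → ℂ} (hF : ∀ i ∈ s, Bd (F i)) :
    θ.f (∑ i ∈ s, F i) = ∑ i ∈ s, θ.f (F i) := by
  classical
  induction s using Finset.induction_on with
  | empty => simp [θ.zero]
  | insert i s hi ih =>
    have h2 : ∀ j ∈ s, Bd (F j) := fun j hj => hF j (Finset.mem_insert_of_mem hj)
    rw [Finset.sum_insert hi, Finset.sum_insert hi,
      θ.add (hF i (Finset.mem_insert_self _ _)) (bd_sum s h2), ih h2]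

theorem congr_ae (hg : Bd g) (hh : Bd h) (e : ∀ ξ, g =ᵐ[θ.ν ξ] h) : θ.f g = θ.f h :=
  ext_quad fun ξ => by rw [θ.rep _ hg, θ.rep _ hh, integral_congr_ae (e ξ)]

theorem inner_P (hA : MeasurableSet A) (ξ : K) : ⟪ξ, θ.P A ξ⟫_ℂ = ((θ.ν ξ).real A : ℂ) := by
  rw [P, θ.rep _ (bd_ind1 hA), integral_indicator hA]
  simp

theorem P_eq_zero_iff (hA : MeasurableSet A) : θ.P A = 0 ↔ ∀ ξ, θ.ν ξ A = 0 := by
  constructor
  · intro h ξ
    have := θ.inner_P hA ξ
    rw [h, zero_apply, inner_zero_right] at this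
    have h2 : (θ.ν ξ).real A = 0 := by exact_mod_cast this.symm
    exact (measureReal_eq_zero_iff (measure_ne_top _ _)).1 h2
  · intro h
    exact ext_quad fun ξ => by rw [θ.inner_P hA, Measure.real, h ξ]; simp

theorem P_empty : θ.P ∅ = 0 := by rw [P, indicator_empty]; exact θ.zero

theorem P_univ : θ.P univ = θ.f 1 := by rw [P, indicator_univ]

theorem P_union (hA : MeasurableSet A) (hB : MeasurableSet B) (hd : Disjoint A B) :
    θ.P (A ∪ B) = θ.P A + θ.P B := by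
  rw [P, P, P, ← θ.add (bd_ind1 hA) (bd_ind1 hB), indicator_union_of_disjoint hd]
  rfl

/-- weak dominated convergence, quadratic form -/
theorem tendsto_quad {ι : Type*} {l : Filter ι} [l.IsCountablyGenerated] {F : ι → Y → ℂ} {C : ℝ}
    (hF : ∀ n, Bd (F n)) (hg : Bd g) (hC : ∀ n x, ‖F n x‖ ≤ C)
    (hl : ∀ x, Tendsto (fun n => F n x) l (𝓝 (g x))) (ξ : K) :
    Tendsto (fun n => ⟪ξ, θ.f (F n) ξ⟫_ℂ) l (𝓝 ⟪ξ, θ.f g ξ⟫_ℂ) := by
  simp_rw [θ.rep _ hg, θ.rep _ (hF _)]
  exact tendsto_integral_filter_of_dominated_convergence (fun _ => C)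
    (Eventually.of_forall fun n => (hF n).meas.aestronglyMeasurable)
    (Eventually.of_forall fun n => Eventually.of_forall fun x => hC n x) (integrable_const _)
    (Eventually.of_forall hl)

theorem inner_star (hg : Bd g) (x y : K) : ⟪x, θ.f (star g) y⟫_ℂ = ⟪θ.f g x, y⟫_ℂ := by
  have key : ∀ z, ⟪z, θ.f (star g) z⟫_ℂ = conj ⟪z, θ.f g z⟫_ℂ := fun z => by
    rw [θ.rep _ (bd_star hg), θ.rep _ hg, ← integral_conj]; rfl
  rw [← inner_conj_symm (θ.f g x), polar (θ.f (star g)), polar (θ.f g) y x, key, key, key, key]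
  have e1 : y + x = x + y := add_comm _ _
  have e2 : y - x = (-1 : ℂ) • (x - y) := by simp
  have e3 : y + Complex.I • x = Complex.I • (x - Complex.I • y) := by
    rw [smul_sub, smul_smul, Complex.I_mul_I]; simp [add_comm]
  have e4 : y - Complex.I • x = (-Complex.I) • (x + Complex.I • y) := by
    rw [smul_add, smul_smul, neg_mul, Complex.I_mul_I]; simp [sub_eq_add_neg, add_comm]
  have q : ∀ (c : ℂ) (z : K), conj c * c = 1 → ⟪c • z, θ.f g (c • z)⟫_ℂ = ⟪z, θ.f g z⟫_ℂ :=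
    fun c z hc => by rw [map_smul, inner_smul_left, inner_smul_right, ← mul_assoc, hc, one_mul]
  rw [e1, e2, e3, e4, q _ _ (by simp), q _ _ (by simp), q _ _ (by simp)]
  simp only [map_div₀, map_add, map_sub, map_mul, Complex.conj_I, Complex.conj_ofNat]
  ring

theorem inner_P_left (hA : MeasurableSet A) (x y : K) : ⟪θ.P A x, y⟫_ℂ = ⟪x, θ.P A y⟫_ℂ := by
  rw [P, ← θ.inner_star (bd_ind1 hA)]
  congr 3
  ext z
  by_cases hz : z ∈ A <;> simp [hz]

theorem two_pos (ha : Bd a) (hb : Bd b) (x y : K) :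
    0 ≤ ∫ z, ‖a z‖ ^ 2 ∂θ.ν x + ∫ z, ‖b z‖ ^ 2 ∂θ.ν y + 2 * (⟪x, θ.f (star a * b) y⟫_ℂ).re := by
  have key : ∀ p : Y → ℂ × ℂ, Measurable p → (∃ C, ∀ z, ‖p z‖ ≤ C) →
      0 ≤ ∫ z, ‖(p z).1‖ ^ 2 ∂θ.ν x + ∫ z, ‖(p z).2‖ ^ 2 ∂θ.ν y
        + 2 * (⟪x, θ.f (star (fun z => (p z).1) * fun z => (p z).2) y⟫_ℂ).re := by
    have b1 : ∀ p : Y → ℂ × ℂ, Measurable p → (∃ C, ∀ z, ‖p z‖ ≤ C) → Bd fun z => (p z).1 :=
      fun p hp ⟨C, hC⟩ => ⟨hp.fst, C, fun z => (_root_.norm_fst_le _).trans (hC z)⟩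
    have b2 : ∀ p : Y → ℂ × ℂ, Measurable p → (∃ C, ∀ z, ‖p z‖ ≤ C) → Bd fun z => (p z).2 :=
      fun p hp ⟨C, hC⟩ => ⟨hp.snd, C, fun z => (_root_.norm_snd_le _).trans (hC z)⟩
    refine ind_gen (fun c A hA => ?_) (fun p q hp hq bp bq hd h1 h2 => ?_)
      (fun F p C hF hp hC hl hP => ?_)
    · have e1 : (fun z => ‖(A.indicator (fun _ => c) z).1‖ ^ 2)
          = A.indicator fun _ => ‖c.1‖ ^ 2 := by
        ext z; by_cases hz : z ∈ A <;> simp [hz]
      have e2 : (fun z => ‖(A.indicator (fun _ => c) z).2‖ ^ 2)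
          = A.indicator fun _ => ‖c.2‖ ^ 2 := by
        ext z; by_cases hz : z ∈ A <;> simp [hz]
      have e3 : (star (fun z => (A.indicator (fun _ => c) z).1)
          * fun z => (A.indicator (fun _ => c) z).2) = (conj c.1 * c.2) • A.indicator 1 := by
        ext z; by_cases hz : z ∈ A <;> simp [hz]
      rw [e1, e2, e3, θ.smul _ (bd_ind1 hA), integral_indicator_const _ hA,
        integral_indicator_const _ hA]
      have h0 : 0 ≤ (⟪c.1 • x + c.2 • y, θ.P A (c.1 • x + c.2 • y)⟫_ℂ).re := by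
        rw [θ.inner_P hA, Complex.ofReal_re]; exact measureReal_nonneg
      have hs : ⟪y, θ.P A x⟫_ℂ = conj ⟪x, θ.P A y⟫_ℂ := by
        rw [inner_conj_symm, θ.inner_P_left hA]
      simp only [map_add, map_smul, inner_add_left, inner_add_right, inner_smul_left,
        inner_smul_right, θ.inner_P hA, hs] at h0
      rw [smul_apply, inner_smul_right]
      change 0 ≤ _ + _ + 2 * (conj c.1 * c.2 * ⟪x, θ.P A y⟫_ℂ).re
      generalize ⟪x, θ.P A y⟫_ℂ = w at h0 ⊢
      simp only [smul_eq_mul, Complex.sq_norm, Complex.normSq_apply, Complex.add_re,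
        Complex.mul_re, Complex.mul_im, Complex.conj_re, Complex.conj_im, Complex.ofReal_re,
        Complex.ofReal_im, Complex.add_im] at h0 ⊢
      nlinarith [h0]
    · have hz : ∀ z, p z = 0 ∨ q z = 0 := fun z => by
        by_contra hc
        push Not at hc
        exact Set.disjoint_left.1 hd hc.1 hc.2
      have e1 : (fun z => ‖((p + q) z).1‖ ^ 2) = fun z => ‖(p z).1‖ ^ 2 + ‖(q z).1‖ ^ 2 := by
        ext z; rcases hz z with h | h <;> simp [h]
      have e2 : (fun z => ‖((p + q) z).2‖ ^ 2) = fun z => ‖(p z).2‖ ^ 2 + ‖(q z).2‖ ^ 2 := by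
        ext z; rcases hz z with h | h <;> simp [h]
      have e3 : (star (fun z => ((p + q) z).1) * fun z => ((p + q) z).2)
          = (star (fun z => (p z).1) * fun z => (p z).2)
            + (star (fun z => (q z).1) * fun z => (q z).2) := by
        ext z; rcases hz z with h | h <;> simp [h]
      rw [e1, e2, e3, θ.add (bd_mul (bd_star (b1 p hp bp)) (b2 p hp bp))
        (bd_mul (bd_star (b1 q hq bq)) (b2 q hq bq)),
        integral_add (bd_int_sq (b1 p hp bp) _) (bd_int_sq (b1 q hq bq) _),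
        integral_add (bd_int_sq (b2 p hp bp) _) (bd_int_sq (b2 q hq bq) _), add_apply,
        inner_add_right, Complex.add_re]
      linarith
    · have bp : ∃ C, ∀ z, ‖p z‖ ≤ C :=
        ⟨C, fun z => le_of_tendsto (hl z).norm (Eventually.of_forall fun n => hC n z)⟩
      have t1 : ∀ (μ : Measure Y) [IsFiniteMeasure μ] (r : ℂ × ℂ → ℂ), Continuous r →
          (∀ w, ‖r w‖ ≤ ‖w‖) → Tendsto (fun n => ∫ z, ‖r (F n z)‖ ^ 2 ∂μ) atTop
            (𝓝 (∫ z, ‖r (p z)‖ ^ 2 ∂μ)) := by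
        intro μ _ r hr hr2
        refine tendsto_integral_of_dominated_convergence (fun _ => C ^ 2)
          (fun n => ((hr.measurable.comp (hF n)).norm.pow_const 2).aestronglyMeasurable)
          (integrable_const _) (fun n => Eventually.of_forall fun z => ?_)
          (Eventually.of_forall fun z => (((hr.tendsto _).comp (hl z)).norm).pow 2)
        rw [Real.norm_of_nonneg (by positivity)]
        exact pow_le_pow_left₀ (norm_nonneg _) ((hr2 _).trans (hC n z)) 2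
      have t3 : P092.H466.WLim
          (fun n => θ.f (star (fun z => (F n z).1) * fun z => (F n z).2))
          (θ.f (star (fun z => (p z).1) * fun z => (p z).2)) := fun ξ =>
        θ.tendsto_quad (C := C * C)
          (fun n => bd_mul (bd_star (b1 _ (hF n) ⟨C, hC n⟩)) (b2 _ (hF n) ⟨C, hC n⟩))
          (bd_mul (bd_star (b1 p hp bp)) (b2 p hp bp)) (fun n z => by
            rw [Pi.mul_apply, norm_mul, Pi.star_apply, norm_star]
            exact mul_le_mul ((_root_.norm_fst_le _).trans (hC n z)) ((_root_.norm_snd_le _).trans (hC n z))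
              (norm_nonneg _) ((norm_nonneg _).trans (hC n z)))
          (fun z => ((continuous_star.tendsto _).comp
            ((continuous_fst.tendsto _).comp (hl z))).mul
            ((continuous_snd.tendsto _).comp (hl z))) ξ
      exact ge_of_tendsto' (((t1 _ Prod.fst continuous_fst _root_.norm_fst_le).add
        (t1 _ Prod.snd continuous_snd _root_.norm_snd_le)).add
        (((Complex.continuous_re.tendsto _).comp (t3.sesq x y)).const_mul 2)) hP
  obtain ⟨C, hC⟩ := ha.bdd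
  obtain ⟨D, hD⟩ := hb.bdd
  exact key (fun z => (a z, b z)) (ha.meas.prodMk hb.meas)
    ⟨max C D, fun z => max_le_max (hC z) (hD z)⟩

/-- Cauchy-Schwarz -/
theorem cs (ha : Bd a) (hb : Bd b) (x y : K) :
    ‖⟪x, θ.f (star a * b) y⟫_ℂ‖ ^ 2 ≤ (∫ z, ‖a z‖ ^ 2 ∂θ.ν x) * ∫ z, ‖b z‖ ^ 2 ∂θ.ν y := by
  set w := ⟪x, θ.f (star a * b) y⟫_ℂ with hw
  set α := ∫ z, ‖a z‖ ^ 2 ∂θ.ν x
  set β := ∫ z, ‖b z‖ ^ 2 ∂θ.ν y
  have key : ∀ t : ℝ, 0 ≤ (‖w‖ ^ 2 * β) * (t * t) + (2 * ‖w‖ ^ 2) * t + α := by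
    intro t
    have h := θ.two_pos ha (bd_smul ((t : ℂ) * conj w) hb) x y
    have e : star a * (((t : ℂ) * conj w) • b) = ((t : ℂ) * conj w) • (star a * b) := by
      ext z; simp; ring
    rw [e, θ.smul _ (bd_mul (bd_star ha) hb), smul_apply, inner_smul_right, ← hw] at h
    have e2 : ∫ z, ‖(((t : ℂ) * conj w) • b) z‖ ^ 2 ∂θ.ν y = (t * t * ‖w‖ ^ 2) * β := by
      rw [← integral_const_mul]
      refine integral_congr_ae (Eventually.of_forall fun z => ?_)
      simp only [Pi.smul_apply, smul_eq_mul, norm_mul, RCLike.norm_conj, Complex.norm_real,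
        Real.norm_eq_abs, mul_pow, sq_abs]
      ring
    have e3 : ((t : ℂ) * conj w * w).re = t * ‖w‖ ^ 2 := by
      rw [mul_assoc, Complex.conj_mul', ← Complex.ofReal_pow, ← Complex.ofReal_mul,
        Complex.ofReal_re]
    rw [e2, e3] at h
    linarith
  have hd := discrim_le_zero key
  rw [discrim] at hd
  rcases eq_or_lt_of_le (sq_nonneg ‖w‖) with h0 | h0
  · rw [← h0]
    exact mul_nonneg (integral_nonneg fun _ => sq_nonneg _) (integral_nonneg fun _ => sq_nonneg _)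
  · have : ‖w‖ ^ 2 * ‖w‖ ^ 2 ≤ ‖w‖ ^ 2 * (α * β) := by nlinarith
    exact le_of_mul_le_mul_left this h0

/-- Kadison-Schwarz -/
theorem norm_sq_le (hg : Bd g) (y : K) : ‖θ.f g y‖ ^ 2 ≤ ∫ z, ‖g z‖ ^ 2 ∂θ.ν y := by
  have h := θ.cs bd_one hg (θ.f g y) y
  rw [star_one, one_mul, inner_self_eq_norm_sq_to_K] at h
  simp only [Pi.one_apply, norm_one, one_pow, integral_const, smul_eq_mul, mul_one, norm_pow,
    Complex.coe_algebraMap, Complex.norm_real, norm_norm] at h
  have h2 := θ.real_univ_le (θ.f g y)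
  have h3 : 0 ≤ ∫ z, ‖g z‖ ^ 2 ∂θ.ν y := integral_nonneg fun _ => sq_nonneg _
  rcases eq_or_lt_of_le (sq_nonneg ‖θ.f g y‖) with h0 | h0
  · rw [← h0]; exact h3
  · have : ‖θ.f g y‖ ^ 2 * ‖θ.f g y‖ ^ 2 ≤ ‖θ.f g y‖ ^ 2 * ∫ z, ‖g z‖ ^ 2 ∂θ.ν y := by
      nlinarith
    exact le_of_mul_le_mul_left this h0

theorem norm_apply_le (hg : Bd g) {C : ℝ} (hC0 : 0 ≤ C) (hC : ∀ z, ‖g z‖ ≤ C) (y : K) :
    ‖θ.f g y‖ ≤ C * ‖y‖ := by
  refine le_of_sq_le_sq ((θ.norm_sq_le hg y).trans ?_) (by positivity)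
  calc ∫ z, ‖g z‖ ^ 2 ∂θ.ν y ≤ ∫ z, C ^ 2 ∂θ.ν y :=
        integral_mono (bd_int_sq hg _) (integrable_const _) fun z =>
          pow_le_pow_left₀ (norm_nonneg _) (hC z) 2
    _ ≤ (C * ‖y‖) ^ 2 := by
        rw [integral_const, smul_eq_mul, mul_pow, mul_comm]
        exact mul_le_mul_of_nonneg_left (θ.real_univ_le y) (by positivity)

theorem norm_le (hg : Bd g) {C : ℝ} (hC0 : 0 ≤ C) (hC : ∀ z, ‖g z‖ ≤ C) : ‖θ.f g‖ ≤ C :=
  opNorm_le_bound _ hC0 (θ.norm_apply_le hg hC0 hC)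

theorem norm_P_le (hA : MeasurableSet A) : ‖θ.P A‖ ≤ 1 :=
  θ.norm_le (bd_ind1 hA) zero_le_one fun z => by by_cases hz : z ∈ A <;> simp [hz]

theorem norm_P_apply_le (hA : MeasurableSet A) (ξ : K) : ‖θ.P A ξ‖ ≤ ‖ξ‖ := by
  simpa using (θ.P A).le_of_opNorm_le (θ.norm_P_le hA) ξ

/-- strong dominated convergence -/
theorem tendsto_strong {ι : Type*} {l : Filter ι} [l.IsCountablyGenerated] {F : ι → Y → ℂ} {C : ℝ}
    (hF : ∀ n, Bd (F n)) (hg : Bd g) (hC : ∀ n x, ‖F n x‖ ≤ C)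
    (hl : ∀ x, Tendsto (fun n => F n x) l (𝓝 (g x))) (ξ : K) :
    Tendsto (fun n => θ.f (F n) ξ) l (𝓝 (θ.f g ξ)) := by
  obtain ⟨D, hD⟩ := hg.bdd
  rw [tendsto_iff_norm_sub_tendsto_zero]
  have h1 : Tendsto (fun n => ∫ z, ‖(F n - g) z‖ ^ 2 ∂θ.ν ξ) l (𝓝 (∫ z, (0 : ℝ) ∂θ.ν ξ)) := by
    refine tendsto_integral_filter_of_dominated_convergence (fun _ => (C + D) ^ 2)
      (Eventually.of_forall fun n =>
        ((bd_sub (hF n) hg).meas.norm.pow_const 2).aestronglyMeasurable)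
      (Eventually.of_forall fun n => Eventually.of_forall fun x => ?_) (integrable_const _)
      (Eventually.of_forall fun x => ?_)
    · rw [Real.norm_of_nonneg (by positivity)]
      exact pow_le_pow_left₀ (norm_nonneg _)
        ((norm_sub_le _ _).trans (add_le_add (hC n x) (hD x))) 2
    · have := ((tendsto_iff_norm_sub_tendsto_zero.1 (hl x)).pow 2)
      simpa using this
  rw [integral_zero] at h1
  have h2 : Tendsto (fun n => ‖θ.f (F n) ξ - θ.f g ξ‖ ^ 2) l (𝓝 0) :=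
    squeeze_zero (fun _ => sq_nonneg _) (fun n => by
      rw [← sub_apply, ← θ.sub (hF n) hg]
      exact θ.norm_sq_le (bd_sub (hF n) hg) ξ) h1
  have h3 := h2.sqrt
  simpa [Real.sqrt_sq (norm_nonneg _)] using h3

theorem star_f [CompleteSpace K] (hg : Bd g) : star (θ.f g) = θ.f (star g) := by
  ext y
  refine ext_inner_left ℂ fun x => ?_
  rw [θ.inner_star hg, star_eq_adjoint, adjoint_inner_right]

theorem star_P [CompleteSpace K] (hA : MeasurableSet A) : star (θ.P A) = θ.P A := by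
  ext y
  refine ext_inner_left ℂ fun x => ?_
  rw [star_eq_adjoint, adjoint_inner_right, θ.inner_P_left hA]

end POM

end Vale.Agent.P092RD
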