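import Vale.Agent.P092RD.Mag
import Vale.Agent.P092CP.L2
import Mathlib.Topology.UrysohnsLemma

/-!
P092 (helper77): the subspace on which two boundary measures agree.
-/

set_option linter.all false

open scoped InnerProductSpace ENNReal NNReal
open MeasureTheory Filter Topology ContinuousLinearMap Set

namespace Vale.Agent.P092RD

open Vale.Agent.P092CP
open Vale.Agent.P092.RC (Cm Moore)

section abs

variable {Y K : Type} [MeasurableSpace Y] [NormedAddCommGroup K] [InnerProductSpace ℂ K]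
  {E E' : POM Y K}

/-- the vectors on which two measures agree -/
def agr (E E' : POM Y K) : Submodule ℂ K where
  carrier := {ξ | ∀ F, Bd F → E.f F ξ = E'.f F ξ}
  zero_mem' := fun F _ => by rw [map_zero, map_zero]
  add_mem' := fun h1 h2 F hF => by rw [map_add, map_add, h1 F hF, h2 F hF]
  smul_mem' := fun c ξ h F hF => by rw [map_smul, map_smul, h F hF]

theorem isClosed_agr (E E' : POM Y K) : IsClosed (agr E E' : Set K) := by
  have : (agr E E' : Set K) = ⋂ F, ⋂ (_ : Bd F), {ξ | E.f F ξ = E'.f F ξ} :=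
    Set.ext fun ξ => by simp only [mem_iInter]; rfl
  rw [this]
  exact isClosed_iInter fun F => isClosed_iInter fun _ =>
    isClosed_eq (E.f F).continuous (E'.f F).continuous

theorem agr_move {T : K →L[ℂ] K} {r : Y → Y} (hr : Measurable r)
    (h : ∀ F, Bd F → E.f F * T = T * E.f (F ∘ r)) (h' : ∀ F, Bd F → E'.f F * T = T * E'.f (F ∘ r)) :
    ∀ ξ ∈ agr E E', T ξ ∈ agr E E' := fun ξ hξ F hF => by
  rw [← mapp, ← mapp, h F hF, h' F hF, mapp, mapp, hξ _ (bd_comp hF hr)]

theorem comm_proj [CompleteSpace K] (U : Submodule ℂ K) [U.HasOrthogonalProjection]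
    {T : K →L[ℂ] K} (h1 : ∀ x ∈ U, T x ∈ U) (h2 : ∀ x ∈ U, adjoint T x ∈ U) :
    U.starProjection * T = T * U.starProjection := by
  ext x
  rw [mapp, mapp]
  refine Submodule.eq_starProjection_of_mem_of_inner_eq_zero
    (h1 _ (U.starProjection_apply_mem x)) fun y hy => ?_
  rw [← map_sub, ← adjoint_inner_right]
  exact U.starProjection_inner_eq_zero x _ (h2 y hy)

theorem cls_ap (E E' : POM Y K) (η η' : K) : Cls fun F => E.f F η = E'.f F η' where
  smul c f hf h := by rw [E.smul c hf, E'.smul c hf, smul_apply, smul_apply, h]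
  add f g hf hg h h' := by rw [E.add hf hg, E'.add hf hg, add_apply, add_apply, h, h']
  lim F g C hF hg hC hl h := tendsto_nhds_unique (E.tendsto_strong hF hg hC hl η)
    ((E'.tendsto_strong hF hg hC hl η').congr fun n => (h n).symm)

variable [TopologicalSpace Y] [BorelSpace Y] [CompleteSpace K]

theorem P_fix [TopologicalSpace.PseudoMetrizableSpace Y] (hE : E.IsP) {B : Set Y} (hB : IsClosed B)
    {x : K} (h : ∀ A, IsClosed A → Disjoint A B → E.P A x = 0) : E.P B x = x := by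
  letI := TopologicalSpace.pseudoMetrizableSpacePseudoMetric Y
  obtain ⟨F, h1, h2, h3, h4⟩ := hB.isOpen_compl.exists_iUnion_isClosed
  have h5 := E.tendsto_P_iUnion (fun n => (h1 n).measurableSet) h4 x
  simp only [fun n => h (F n) (h1 n) (subset_compl_iff_disjoint_right.1 (h2 n)), h3] at h5
  have h6 := tendsto_nhds_unique h5 tendsto_const_nhds
  rw [hE.P_compl hB.measurableSet, sub_apply, oapp, sub_eq_zero] at h6
  exact h6.symm

/-- commuting measures which agree nowhere are separated by closed sets -/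
theorem exists_sep [TopologicalSpace.PseudoMetrizableSpace Y] (hE : E.IsP) (hE' : E'.IsP)
    (cm : ∀ F F', Bd F → Bd F' → E.f F * E'.f F' = E'.f F' * E.f F) (h0 : agr E E' = ⊥)
    {Q : K →L[ℂ] K} (hQ : Q ≠ 0) :
    ∃ A B, IsClosed A ∧ IsClosed B ∧ Disjoint A B ∧ E.P A * E'.P B * Q ≠ 0 := by
  by_contra h
  push Not at h
  refine hQ (ContinuousLinearMap.ext fun ξ => (Submodule.eq_bot_iff _).1 h0 _ ?_)
  have c : ∀ A B, IsClosed A → IsClosed B → E.P A * E'.P B = E'.P B * E.P A := fun A B hA hB =>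
    cm _ _ (bd_ind1 hA.measurableSet) (bd_ind1 hB.measurableSet)
  refine (cls_ap E E' (Q ξ) (Q ξ)).of_pi
    ((BorelSpace.measurable_eq (α := Y)).trans borel_eq_generateFrom_isClosed) isPiSystem_isClosed
    (by rw [hE.one, hE'.one]) fun B hB => ?_
  have a := P_fix hE hB (x := E'.P B (Q ξ)) fun A hA hd => ap_eq (h A B hA hB hd) ξ
  have b := P_fix hE' hB (x := E.P B (Q ξ)) fun A hA hd => by
    rw [← mapp, ← c B A hB hA]
    exact ap_eq (h B A hB hA hd.symm) ξ
  exact b.symm.trans ((ap_eq (c B B hB hB) _).symm.trans a)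

omit [MeasurableSpace Y] [BorelSpace Y] in
theorem exists_bumps [CompactSpace Y] [T2Space Y] {ι : Type} [Finite ι] {A : ι → Set Y}
    (hA : ∀ i, IsClosed (A i)) (hd : ∀ i j, i ≠ j → Disjoint (A i) (A j)) :
    ∃ f : ι → C(Y, ℂ), (∀ i, star (f i) = f i) ∧ (∀ i, EqOn (f i) 1 (A i)) ∧
      ∀ i j, i ≠ j → Disjoint (tsupport (f i)) (tsupport (f j)) := by
  have h1 : ∀ i j, ∃ U V : Set Y, IsOpen U ∧ IsOpen V ∧ A i ⊆ U ∧ A j ⊆ V ∧
      (i ≠ j → Disjoint U V) := fun i j => by
    by_cases e : i = j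
    · exact ⟨univ, univ, isOpen_univ, isOpen_univ, subset_univ _, subset_univ _, fun h => (h e).elim⟩
    · obtain ⟨U, V, a, b, c, d, e⟩ := normal_separation (hA i) (hA j) (hd i j e)
      exact ⟨U, V, a, b, c, d, fun _ => e⟩
  choose U V hU hV h2 h3 h4 using h1
  have h5 := fun i => exists_continuousMap_one_of_isCompact_subset_isOpen (hA i).isCompact
    (isOpen_iInter_of_finite fun j => (hU i j).inter (hV j i))
    (subset_iInter fun j => subset_inter (h2 i j) (h3 j i))
  choose f h6 h7 h8 h9 using h5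
  have e : ∀ i, tsupport (fun y => (f i y : ℂ)) = tsupport (f i) := fun i =>
    congrArg closure (Set.ext fun y => Complex.ofReal_ne_zero)
  refine ⟨fun i => ⟨fun y => (f i y : ℂ), by fun_prop⟩, fun i => ?_, fun i y hy => ?_,
    fun i j hij => ?_⟩
  · ext y; exact Complex.conj_ofReal _
  · show ((f i y : ℝ) : ℂ) = 1
    rw [h6 i hy]; rfl
  · refine (h4 i j hij).mono (((e i).le.trans (h8 i)).trans ?_) (((e j).le.trans (h8 j)).trans ?_)
    · exact (iInter_subset _ j).trans inter_subset_left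
    · exact (iInter_subset _ i).trans inter_subset_right

theorem bd_c [CompactSpace Y] (f : C(Y, ℂ)) : Bd f :=
  ⟨f.continuous.measurable, ‖f‖, f.norm_coe_le_norm⟩

/-- the continuous calculus of a projection valued measure -/
noncomputable def POM.IsP.hom [CompactSpace Y] (hE : E.IsP) :
    C(Y, ℂ) →⋆ₐ[ℂ] (K →L[ℂ] K) where
  toFun f := E.f f
  map_one' := hE.one
  map_mul' f g := hE.mul _ _ (bd_c f) (bd_c g)
  map_zero' := E.zero
  map_add' f g := E.add (bd_c f) (bd_c g)
  commutes' c := (hE.const c).trans (Algebra.algebraMap_eq_smul_one c).symm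
  map_star' f := (E.star_f (bd_c f)).symm

theorem POM.IsP.hom_apply [CompactSpace Y] (hE : E.IsP) (f : C(Y, ℂ)) :
    hE.hom f = E.f f := rfl

/-- **three commuting measures which agree nowhere** -/
theorem exists_three [CompactSpace Y] [TopologicalSpace.MetrizableSpace Y] {E : Fin 3 → POM Y K}
    (hE : ∀ i, (E i).IsP)
    (cm : ∀ i j F F', Bd F → Bd F' → (E i).f F * (E j).f F' = (E j).f F' * (E i).f F)
    (h01 : agr (E 0) (E 1) = ⊥) (h02 : agr (E 0) (E 2) = ⊥) (h12 : agr (E 1) (E 2) = ⊥)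
    (h1 : (1 : K →L[ℂ] K) ≠ 0) : ∃ f : Fin 3 → C(Y, ℂ), (∀ i, star (f i) = f i) ∧
      (∀ i j, i ≠ j → Disjoint (tsupport (f i)) (tsupport (f j))) ∧
      (E 0).f (f 0) * (E 1).f (f 1) * (E 2).f (f 2) ≠ 0 := by
  obtain ⟨A, B, hA, hB, d1, n1⟩ := exists_sep (hE 0) (hE 1) (cm 0 1) h01 h1
  obtain ⟨A', C, hA', hC, d2, n2⟩ := exists_sep (hE 0) (hE 2) (cm 0 2) h02 n1
  obtain ⟨B', C', hB', hC', d3, n3⟩ := exists_sep (hE 1) (hE 2) (cm 1 2) h12 n2
  have d4 : Disjoint (A' ∩ A) (B' ∩ B) := d1.mono inter_subset_right inter_subset_right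
  have d5 : Disjoint (A' ∩ A) (C' ∩ C) := d2.mono inter_subset_left inter_subset_right
  have d6 : Disjoint (B' ∩ B) (C' ∩ C) := d3.mono inter_subset_left inter_subset_left
  obtain ⟨f, f1, f2, f3⟩ := exists_bumps (A := ![A' ∩ A, B' ∩ B, C' ∩ C])
    (fun i => by fin_cases i; exacts [hA'.inter hA, hB'.inter hB, hC'.inter hC])
    (fun i j hij => by
      fin_cases i <;> fin_cases j
      exacts [(hij rfl).elim, d4, d5, d4.symm, (hij rfl).elim, d6, d5.symm, d6.symm, (hij rfl).elim])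
  refine ⟨f, f1, f3, fun h0 => n3 ?_⟩
  have e : ∀ i {S : Set Y}, IsClosed S → EqOn (f i) 1 S → (E i).P S = (E i).P S * (E i).f (f i) :=
    fun i S hS h => by
      rw [(hE i).P_mul_f hS.measurableSet (bd_c _)]
      exact congrArg _ (indicator_congr h).symm
  have c : ∀ i j {S T : Set Y}, IsClosed S → IsClosed T → Commute ((E i).P S) ((E j).P T) :=
    fun i j S T hS hT => cm i j _ _ (bd_ind1 hS.measurableSet) (bd_ind1 hT.measurableSet)
  have c' : ∀ i j {T : Set Y}, IsClosed T → Commute ((E i).f (f i)) ((E j).P T) :=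
    fun i j T hT => cm i j _ _ (bd_c _) (bd_ind1 hT.measurableSet)
  have e1 : (E 1).P B' * (E 2).P C' * ((E 0).P A' * (E 2).P C * ((E 0).P A * (E 1).P B * 1))
      = (E 0).P (A' ∩ A) * (E 1).P (B' ∩ B) * (E 2).P (C' ∩ C) := by
    rw [(hE 0).P_inter hA'.measurableSet hA.measurableSet,
      (hE 1).P_inter hB'.measurableSet hB.measurableSet,
      (hE 2).P_inter hC'.measurableSet hC.measurableSet, mul_one]
    simp only [mul_assoc]
    rw [(c 2 0 hC' hA').left_comm, (c 1 0 hB' hA').left_comm, (c 2 0 hC hA).left_comm,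
      (c 2 0 hC' hA).left_comm, (c 1 0 hB' hA).left_comm, (c 2 1 hC hB).eq,
      (c 2 1 hC' hB).left_comm]
  rw [e1, e 0 (hA'.inter hA) (f2 0), e 1 (hB'.inter hB) (f2 1), e 2 (hC'.inter hC) (f2 2)]
  simp only [mul_assoc] at h0 ⊢
  rw [(c' 1 2 (hC'.inter hC)).left_comm, (c' 0 1 (hB'.inter hB)).left_comm,
    (c' 0 2 (hC'.inter hC)).left_comm, h0, mul_zero, mul_zero, mul_zero]

end abs

variable {G G' K : Type} [Group G] [TopologicalSpace G] [IsTopologicalGroup G]
  [LocallyCompactSpace G] [SecondCountableTopology G] [T2Space G] [MeasurableSpace G] [BorelSpace G]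
  [Group G'] [TopologicalSpace G'] [IsTopologicalGroup G'] [LocallyCompactSpace G']
  [SecondCountableTopology G'] [T2Space G'] [MeasurableSpace G'] [BorelSpace G']
  [NormedAddCommGroup K] [InnerProductSpace ℂ K] [CompleteSpace K] {μ : Measure G}
  [μ.IsHaarMeasure] {μ' : Measure G'} [μ'.IsHaarMeasure] {W : Set (K →L[ℂ] K)}
  {Y : Type} [MeasurableSpace Y] [MulAction G' Y] [MeasurableConstSMul G' Y] {E E' : POM Y K}

/-- the translate of a measure -/
noncomputable def tr (S : Side μ W) (g : G) (E : POM Y K) : POM Y K :=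
  E.cj (S.π g) (S.π g⁻¹) (S.star_π g) (pi_mul_inv g)

theorem tr_f (S : Side μ W) (g : G) (E : POM Y K) (F : Y → ℂ) :
    (tr S g E).f F = S.π g * E.f F * S.π g⁻¹ := rfl

theorem isP_tr (S : Side μ W) (g : G) (hE : E.IsP) : (tr S g E).IsP := hE.cj _ _ (pi_inv_mul g)

theorem cov_tr (C : Cpl μ μ' W) (g : G) (cov : Cov C.t.π E) : Cov C.t.π (tr C.s g E) :=
  fun x F hF => by rw [tr_f, tr_f, ← conj_comm, cov x F hF]

theorem agr_tr (S : Side μ W) (g x y : G) (h : agr (tr S x E) (tr S y E') = ⊥) :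
    agr (tr S (g * x) E) (tr S (g * y) E') = ⊥ := by
  refine (Submodule.eq_bot_iff _).2 fun ξ hξ => ?_
  have := (Submodule.eq_bot_iff _).1 h (S.π g⁻¹ ξ) fun F hF => by
    have h1 := congrArg (S.π g⁻¹) (hξ F hF)
    rw [tr_f, tr_f, ← S.conj_conj, ← S.conj_conj] at h1
    simpa only [tr_f, mapp, pi_inv_ap] using h1
  rw [← pi_ap_inv (π := S.π) g ξ, this, map_zero]

/-- **two covariant measures invariant under an ergodic set agree everywhere or nowhere** -/
theorem agr_dich (C : Cpl μ μ' W) {S : Set G} (hS : Moore S) (cm : ∀ F, Bd F → Cm W (E.f F))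
    (cm' : ∀ F, Bd F → Cm W (E'.f F)) (cov : Cov C.t.π E) (cov' : Cov C.t.π E')
    (inv : ∀ g ∈ S, ∀ F, Bd F → C.s.π g * E.f F * C.s.π g⁻¹ = E.f F)
    (inv' : ∀ g ∈ S, ∀ F, Bd F → C.s.π g * E'.f F * C.s.π g⁻¹ = E'.f F) :
    agr E E' = ⊥ ∨ ∀ F, Bd F → E.f F = E'.f F := by
  haveI := (isClosed_agr E E').completeSpace_coe
  have a : ∀ w ∈ W, ∀ ξ ∈ agr E E', w ξ ∈ agr E E' := fun w hw =>
    agr_move measurable_id (fun F hF => cm F hF w hw) fun F hF => cm' F hF w hw
  have b0 : ∀ {E : POM Y K}, Cov C.t.π E → ∀ x F, Bd F →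
      E.f F * C.t.π x = C.t.π x * E.f (F ∘ fun y => x • y) := fun {E} cov x F hF => by
    have := cov x⁻¹ F hF
    rw [inv_inv] at this
    show _ = _ * E.f fun y => F (x • y)
    rw [← this, ← mul_assoc, ← mul_assoc, pi_mul_inv, one_mul]
  have b : ∀ x, ∀ ξ ∈ agr E E', C.t.π x ξ ∈ agr E E' := fun x =>
    agr_move (measurable_const_smul x) (b0 cov x) (b0 cov' x)
  have c0 : ∀ {x : K →L[ℂ] K} {g : G}, C.s.π g * x * C.s.π g⁻¹ = x →
      x * C.s.π g⁻¹ = C.s.π g⁻¹ * x := fun {x g} h => by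
    conv_rhs => rw [← h, ← mul_assoc, ← mul_assoc, pi_inv_mul, one_mul]
  obtain ⟨z, hz⟩ := C.erg hS (x := (agr E E').starProjection)
    ⟨fun w hw => comm_proj _ (a w hw) (a _ (C.Wadj w hw)),
      fun x => comm_proj _ (b x) (by rw [C.t.adj]; exact b _)⟩
    fun g hg => comm_proj _
      (agr_move measurable_id (fun F hF => comm_of_conj (inv g hg F hF))
        fun F hF => comm_of_conj (inv' g hg F hF))
      (by
        rw [C.s.adj]
        exact agr_move measurable_id (fun F hF => c0 (inv g hg F hF))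
          fun F hF => c0 (inv' g hg F hF))
  by_cases h0 : z = 0
  · refine Or.inl ((Submodule.eq_bot_iff _).2 fun ξ hξ => ?_)
    rw [← Submodule.starProjection_eq_self_iff.2 hξ, hz, h0, zero_smul, zero_apply]
  · refine Or.inr fun F hF => ContinuousLinearMap.ext fun ξ => ?_
    have := (agr E E').starProjection_apply_mem (z⁻¹ • ξ) F hF
    rwa [hz, smul_apply, oapp, smul_inv_smul₀ h0] at this

/-- a measure fixed by the source gives an invariant probability measure -/
theorem inv_of_fix (C : Cpl μ μ' W) (cm : ∀ F, Bd F → Cm W (E.f F)) (cov : Cov C.t.π E)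
    (inv : ∀ g F, Bd F → C.s.π g * E.f F * C.s.π g⁻¹ = E.f F) (x : G') :
    (E.ν C.s.Ω).map (fun y => x • y) = E.ν C.s.Ω := by
  ext A hA
  rw [Measure.map_apply (measurable_const_smul x) hA]
  have h1 := C.swap.τ_σ (x := E.P A) ⟨cm _ (bd_ind1 hA), cp_of_conj fun g => inv g _ (bd_ind1 hA)⟩
    x⁻¹
  change C.s.τ (C.t.π x⁻¹ * E.P A * C.t.π x⁻¹⁻¹) = C.s.τ (E.P A) at h1
  rw [cov.P x⁻¹ hA, inv_inv] at h1
  unfold Side.τ at h1
  rw [E.inner_P hA, E.inner_P (measurable_const_smul x hA)] at h1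
  exact (measureReal_eq_measureReal_iff (measure_ne_top _ _) (measure_ne_top _ _)).1
    (by exact_mod_cast h1)

end Vale.Agent.P092RD
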