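import Vale.Agent.P092RD.Pom2

/-!
P092 (helper77): constructions of operator valued measures; commutation from characteristic
functions and from separating families.
-/

set_option linter.all false

open scoped InnerProductSpace ENNReal NNReal ComplexConjugate CompactlySupported
open MeasureTheory Filter Topology ContinuousLinearMap Set

namespace Vale.Agent.P092RD

open Vale.Agent.P092CP (Bd)
open Vale.Agent.P092.H466 (polar ext_quad exists_wlim norm_le_of_quad)

namespace POM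

variable {Y Z K K' : Type} [MeasurableSpace Y] [MeasurableSpace Z] [NormedAddCommGroup K]
  [InnerProductSpace ℂ K] [NormedAddCommGroup K'] [InnerProductSpace ℂ K']

/-- push forward along a measurable map -/
noncomputable def map (θ : POM Y K) (r : Y → Z) (hr : Measurable r) : POM Z K where
  f g := θ.f (g ∘ r)
  ν ξ := (θ.ν ξ).map r
  fin ξ := by rw [Measure.map_apply hr MeasurableSet.univ]; exact θ.fin ξ
  rep g hg ξ := by
    rw [θ.rep _ (bd_comp hg hr), integral_map hr.aemeasurable hg.meas.aestronglyMeasurable]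
    rfl

theorem map_f (θ : POM Y K) {r : Y → Z} (hr : Measurable r) (g : Z → ℂ) :
    (θ.map r hr).f g = θ.f (g ∘ r) := rfl

theorem map_P (θ : POM Y K) {r : Y → Z} (hr : Measurable r) (A : Set Z) :
    (θ.map r hr).P A = θ.P (r ⁻¹' A) := rfl

theorem IsP.map {θ : POM Y K} (hθ : θ.IsP) {r : Y → Z} (hr : Measurable r) : (θ.map r hr).IsP :=
  ⟨hθ.one, fun g h hg hh => hθ.mul _ _ (bd_comp hg hr) (bd_comp hh hr)⟩

/-- compression `V* θ V` by a contraction -/
noncomputable def cmp [CompleteSpace K] [CompleteSpace K'] (θ : POM Y K) (V : K' →L[ℂ] K)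
    (hV : ∀ ξ, ‖V ξ‖ ≤ ‖ξ‖) : POM Y K' where
  f g := adjoint V ∘L θ.f g ∘L V
  ν ξ := θ.ν (V ξ)
  fin ξ := (θ.fin _).trans (by
    rw [← ofReal_norm_eq_enorm, ← ofReal_norm_eq_enorm]
    exact pow_le_pow_left' (ENNReal.ofReal_le_ofReal (hV ξ)) 2)
  rep g hg ξ := by
    rw [← θ.rep g hg, comp_apply, adjoint_inner_right]; rfl

/-- conjugation `u θ v`, `v = u* = u⁻¹` -/
noncomputable def cj [CompleteSpace K] (θ : POM Y K) (u v : K →L[ℂ] K) (h : star u = v)
    (h1 : u * v = 1) : POM Y K where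
  f g := u * θ.f g * v
  ν ξ := θ.ν (v ξ)
  fin ξ := (θ.fin _).trans (by
    have : ‖v ξ‖ ^ 2 = ‖ξ‖ ^ 2 := by
      rw [← inner_self_eq_norm_sq (𝕜 := ℂ), ← inner_self_eq_norm_sq (𝕜 := ℂ)]
      conv_lhs => rw [← h, star_eq_adjoint, adjoint_inner_left, ← star_eq_adjoint, h, ← mapp, h1]
      rfl
    rw [← ofReal_norm_eq_enorm, ← ofReal_norm_eq_enorm, ← ENNReal.ofReal_pow (norm_nonneg _),
      ← ENNReal.ofReal_pow (norm_nonneg _), this])
  rep g hg ξ := by
    rw [← θ.rep g hg, mapp, mapp]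
    conv_rhs => rw [← h, star_eq_adjoint, adjoint_inner_left, ← star_eq_adjoint, h]

theorem cj_f [CompleteSpace K] (θ : POM Y K) {u v : K →L[ℂ] K} (h : star u = v)
    (h1 : u * v = 1) (g : Y → ℂ) : (θ.cj u v h h1).f g = u * θ.f g * v := rfl

theorem IsP.cj [CompleteSpace K] {θ : POM Y K} (hθ : θ.IsP) {u v : K →L[ℂ] K} (h : star u = v)
    (h1 : u * v = 1) (h2 : v * u = 1) : (θ.cj u v h h1).IsP where
  one := by rw [cj_f, hθ.one, mul_one, h1]
  mul a b ha hb := by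
    simp only [cj_f, hθ.mul a b ha hb, mul_assoc]
    rw [← mul_assoc v u, h2, one_mul]

/-- the functions whose integrals are the quadratic form of an operator -/
theorem cls_ex [CompleteSpace K] (ν : K → Measure Y) (fin : ∀ ξ, ν ξ univ ≤ ‖ξ‖ₑ ^ 2) :
    Cls fun g : Y → ℂ => ∃ T : K →L[ℂ] K, ∀ ξ, ⟪ξ, T ξ⟫_ℂ = ∫ y, g y ∂ν ξ := by
  have hf : ∀ ξ, IsFiniteMeasure (ν ξ) := fun ξ =>
    ⟨(fin ξ).trans_lt (ENNReal.pow_lt_top enorm_lt_top)⟩
  refine ⟨?_, ?_, ?_⟩
  · rintro c g hg ⟨T, hT⟩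
    exact ⟨c • T, fun ξ => by
      rw [smul_apply, inner_smul_right, hT, ← integral_const_mul]; rfl⟩
  · rintro g h hg hh ⟨T, hT⟩ ⟨S, hS⟩
    exact ⟨T + S, fun ξ => by
      rw [add_apply, inner_add_right, hT, hS, ← integral_add (bd_int hg _) (bd_int hh _)]; rfl⟩
  · intro F g C hF hg hC hl hP
    choose T hT using hP
    refine exists_wlim (T := T) (C := 2 * (|C| + 1)) (fun n => ?_) fun ξ => ?_
    · have hc : (0 : ℝ) < |C| + 1 := by positivity
      have := norm_le_of_quad (T := (((|C| + 1)⁻¹ : ℝ) : ℂ) • T n) fun ξ => by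
        rw [smul_apply, inner_smul_right, norm_mul, Complex.norm_real,
          Real.norm_of_nonneg (inv_nonneg.2 hc.le), hT, inv_mul_le_iff₀ hc]
        refine (norm_integral_le_of_norm_le_const (C := |C| + 1)
          (Eventually.of_forall fun y => (hC n y).trans (by linarith [le_abs_self C]))).trans ?_
        refine mul_le_mul_of_nonneg_left ?_ hc.le
        have := ENNReal.toReal_mono (ENNReal.pow_ne_top enorm_ne_top) (fin ξ)
        simpa [Measure.real] using this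
      rw [norm_smul, Complex.norm_real, Real.norm_of_nonneg (inv_nonneg.2 hc.le),
        inv_mul_le_iff₀ hc] at this
      linarith
    · simp_rw [hT]
      exact tendsto_integral_of_dominated_convergence (fun _ => C)
        (fun n => (hF n).meas.aestronglyMeasurable) (integrable_const _)
        (fun n => Eventually.of_forall fun x => hC n x) (Eventually.of_forall hl)

open Classical in
/-- a measure valued quadratic form gives a `POM` -/
noncomputable def ofEx (ν : K → Measure Y) (fin : ∀ ξ, ν ξ univ ≤ ‖ξ‖ₑ ^ 2)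
    (ex : ∀ g : Y → ℂ, Bd g → ∃ T : K →L[ℂ] K, ∀ ξ, ⟪ξ, T ξ⟫_ℂ = ∫ y, g y ∂ν ξ) : POM Y K where
  f g := if hg : Bd g then (ex g hg).choose else 0
  ν := ν
  fin := fin
  rep g hg ξ := by rw [dif_pos hg]; exact (ex g hg).choose_spec ξ

/-- from the operators of the sets -/
theorem exists_ofSets [CompleteSpace K] (ν : K → Measure Y) (fin : ∀ ξ, ν ξ univ ≤ ‖ξ‖ₑ ^ 2)
    (Q : Set Y → K →L[ℂ] K)
    (hQ : ∀ A, MeasurableSet A → ∀ ξ, ⟪ξ, Q A ξ⟫_ℂ = ((ν ξ).real A : ℂ)) :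
    ∃ θ : POM Y K, θ.ν = ν ∧ ∀ A, MeasurableSet A → θ.P A = Q A := by
  refine ⟨ofEx ν fin ((cls_ex ν fin).of_sets fun A hA => ⟨Q A, fun ξ => ?_⟩), rfl,
    fun A hA => ext_quad fun ξ => ?_⟩
  · rw [hQ A hA, integral_indicator hA]; simp
  · rw [inner_P _ hA, hQ A hA]; rfl

/-- **Riesz**: from a positive contractive map on `C_c(Y, ℝ)` -/
theorem exists_ofCc [CompleteSpace K] [TopologicalSpace Y] [BorelSpace Y] [LocallyCompactSpace Y]
    [T2Space Y] [SecondCountableTopology Y] (Φ : C_c(Y, ℝ) → K →L[ℂ] K)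
    (add : ∀ g h, Φ (g + h) = Φ g + Φ h) (smul : ∀ (c : ℝ) g, Φ (c • g) = (c : ℂ) • Φ g)
    (im : ∀ g ξ, (⟪ξ, Φ g ξ⟫_ℂ).im = 0)
    (pos : ∀ g : C_c(Y, ℝ), (∀ y, 0 ≤ g y) → ∀ ξ, 0 ≤ (⟪ξ, Φ g ξ⟫_ℂ).re)
    (le : ∀ g : C_c(Y, ℝ), (∀ y, 0 ≤ g y ∧ g y ≤ 1) → ∀ ξ, (⟪ξ, Φ g ξ⟫_ℂ).re ≤ ‖ξ‖ ^ 2) :
    ∃ θ : POM Y K, ∀ g : C_c(Y, ℝ), θ.f (fun y => (g y : ℂ)) = Φ g := by
  let Λ : K → C_c(Y, ℝ) →ₚ[ℝ] ℝ := fun ξ => PositiveLinearMap.mk₀
    { toFun := fun g => (⟪ξ, Φ g ξ⟫_ℂ).re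
      map_add' := fun g h => by rw [add, add_apply, inner_add_right, Complex.add_re]
      map_smul' := fun c g => by
        rw [smul, smul_apply, inner_smul_right, Complex.re_ofReal_mul]; rfl }
    (fun g hg => pos g (fun y => hg y) ξ)
  let ν : K → Measure Y := fun ξ => RealRMK.rieszMeasure (Λ ξ)
  have hν : ∀ ξ (g : C_c(Y, ℝ)), ⟪ξ, Φ g ξ⟫_ℂ = ∫ y, (g y : ℂ) ∂ν ξ := fun ξ g => by
    rw [integral_complex_ofReal, RealRMK.integral_rieszMeasure]
    exact Complex.ext rfl (im g ξ)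
  have fin : ∀ ξ, ν ξ univ ≤ ‖ξ‖ₑ ^ 2 := fun ξ => by
    rw [isOpen_univ.measure_eq_iSup_isCompact]
    refine iSup_le fun L => iSup_le fun _ => iSup_le fun hL => ?_
    obtain ⟨φ, h1, -, h3, h4⟩ :=
      exists_continuous_one_zero_of_isCompact hL isClosed_empty (disjoint_empty _)
    refine (RealRMK.rieszMeasure_le_of_eq_one (Λ ξ) (f := ⟨φ, h3⟩) (fun y => (h4 y).1) hL
      h1).trans ?_
    rw [← ofReal_norm_eq_enorm, ← ENNReal.ofReal_pow (norm_nonneg _)]
    exact ENNReal.ofReal_le_ofReal (le ⟨φ, h3⟩ h4 ξ)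
  exact ⟨ofEx ν fin ((cls_ex ν fin).of_cc fun g => ⟨Φ g, fun ξ => hν ξ g⟩),
    fun g => ext_quad fun ξ => by rw [rep _ _ (bd_cc g), hν]; rfl⟩

/-- from a unital *-homomorphism on `C(Y, ℂ)`, `Y` compact -/
theorem exists_ofHom [CompleteSpace K] [TopologicalSpace Y] [BorelSpace Y] [CompactSpace Y]
    [TopologicalSpace.MetrizableSpace Y] (φ : C(Y, ℂ) →⋆ₐ[ℂ] (K →L[ℂ] K)) :
    ∃ θ : POM Y K, θ.IsP ∧ (∀ g : C(Y, ℂ), θ.f g = φ g) ∧
      ∀ A, MeasurableSet A → θ.P A = P092.H466.pv φ A := by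
  obtain ⟨θ, h1, h2⟩ := exists_ofSets (P092.H466.ms φ) (fun ξ => by
    rw [← ofReal_measureReal (measure_ne_top _ _), P092.H466.ms_univ, ← ofReal_norm_eq_enorm,
      ENNReal.ofReal_pow (norm_nonneg _)]) (P092.H466.pv φ) fun A hA => P092.H466.inner_pv φ hA
  refine ⟨θ, θ.isP_of_sets ?_ fun A B hA hB => ?_, fun g => ext_quad fun ξ => ?_, h2⟩
  · rw [← θ.P_univ, h2 _ .univ, P092.H466.pv_univ]
  · rw [h2 _ hA, h2 _ hB, h2 _ (hA.inter hB), P092.H466.pv_inter φ hA hB]
  · rw [θ.rep _ ⟨g.continuous.measurable, ‖g‖, g.norm_coe_le_norm⟩, h1, P092.H466.integral_ms]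

/-! ### characteristic functions -/

theorem re_inner_real (θ : POM Y K) {a : Y → ℝ} (ha : Bd fun y => (a y : ℂ)) (x y : K) :
    (⟪x, θ.f (fun y => (a y : ℂ)) y⟫_ℂ).re
      = (∫ z, a z ∂θ.ν (x + y) - ∫ z, a z ∂θ.ν (x - y)) / 4 := by
  rw [polar, θ.rep _ ha, θ.rep _ ha, θ.rep _ ha, θ.rep _ ha]
  simp only [integral_complex_ofReal]
  simp

/-- the exponential function -/
noncomputable def ex (t : ℝ) (D : Y → ℝ) : Y → ℂ := fun y => Complex.exp (t * D y * Complex.I)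

theorem norm_ex (t : ℝ) (D : Y → ℝ) (y : Y) : ‖ex t D y‖ = 1 := by
  rw [ex, ← Complex.ofReal_mul, Complex.norm_exp_ofReal_mul_I]

theorem bd_ex (t : ℝ) {D : Y → ℝ} (hD : Measurable D) : Bd (ex t D) :=
  ⟨by unfold ex; fun_prop, 1, fun y => (norm_ex t D y).le⟩

theorem ex_add (t : ℝ) (D E : Y → ℝ) : ex t (D + E) = ex t D * ex t E := by
  ext y
  simp [ex, mul_add, add_mul, Complex.exp_add]

theorem star_ex (t : ℝ) (D : Y → ℝ) : star (ex t D) = ex (-t) D := by
  ext y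
  simp [ex, ← Complex.exp_conj]

/-- an operator which intertwines the exponentials intertwines the calculi -/
theorem tw_of_ex [CompleteSpace K] [CompleteSpace K'] (θ : POM ℝ K) (θ' : POM ℝ K')
    (T : K →L[ℂ] K') (h : ∀ t, T ∘L θ.f (ex t id) = θ'.f (ex t id) ∘L T) {g : ℝ → ℂ} (hg : Bd g) :
    T ∘L θ.f g = θ'.f g ∘L T := by
  have hc := cls_tw θ θ' T
  have b := fun t => bd_ex (Y := ℝ) t measurable_id
  have bc : ∀ t : ℝ, Bd fun y : ℝ => (Real.cos (t * y) : ℂ) := fun t =>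
    bd_real (by fun_prop) fun y => Real.abs_cos_le_one _
  have bs : ∀ t : ℝ, Bd fun y : ℝ => (Real.sin (t * y) : ℂ) := fun t =>
    bd_real (by fun_prop) fun y => Real.abs_sin_le_one _
  have hcos : ∀ t : ℝ, T ∘L θ.f (fun y => (Real.cos (t * y) : ℂ))
      = θ'.f (fun y => (Real.cos (t * y) : ℂ)) ∘L T := fun t => by
    have := hc.smul (1 / 2) _ (bd_add (b t) (b (-t))) (hc.add _ _ (b t) (b (-t)) (h t) (h (-t)))
    convert this using 3 <;>
    · ext y
      simp [ex, Complex.cos]; ring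
  have hsin : ∀ t : ℝ, T ∘L θ.f (fun y => (Real.sin (t * y) : ℂ))
      = θ'.f (fun y => (Real.sin (t * y) : ℂ)) ∘L T := fun t => by
    have := hc.smul (Complex.I / 2) _ (bd_add (b (-t)) (bd_smul (-1) (b t)))
      (hc.add _ _ (b (-t)) (bd_smul (-1) (b t)) (h (-t)) (hc.smul (-1) _ (b t) (h t)))
    convert this using 3 <;>
    · ext y
      simp [ex, Complex.sin]; ring
  have key : ∀ {a : ℝ → ℝ}, Bd (fun y => (a y : ℂ)) → ∀ (x : K') (y : K),
      ((⟪x, (T ∘L θ.f fun y => (a y : ℂ)) y⟫_ℂ).re = (⟪x, (θ'.f (fun y => (a y : ℂ)) ∘L T) y⟫_ℂ).re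
      ↔ ∫ z, a z ∂(θ.ν (adjoint T x + y) + θ'.ν (x - T y))
        = ∫ z, a z ∂(θ.ν (adjoint T x - y) + θ'.ν (x + T y))) := by
    intro a ha x y
    have hi : ∀ (μ : Measure ℝ) [IsFiniteMeasure μ], Integrable a μ := fun μ _ => by
      simpa using (bd_int ha μ).re
    rw [comp_apply, comp_apply, ← adjoint_inner_left, θ.re_inner_real ha, θ'.re_inner_real ha,
      integral_add_measure (hi _) (hi _), integral_add_measure (hi _) (hi _)]
    constructor <;> intro e <;> linarith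
  have hm : ∀ (x : K') (y : K), θ.ν (adjoint T x + y) + θ'.ν (x - T y)
      = θ.ν (adjoint T x - y) + θ'.ν (x + T y) := fun x y => by
    refine Measure.ext_of_charFun (funext fun t => ?_)
    have e : ∀ (μ : Measure ℝ) [IsFiniteMeasure μ], charFun μ t
        = (∫ z, Real.cos (t * z) ∂μ : ℝ) + (∫ z, Real.sin (t * z) ∂μ : ℝ) * Complex.I := by
      intro μ _
      rw [charFun_apply_real, ← integral_complex_ofReal, ← integral_complex_ofReal,
        ← integral_mul_const, ← integral_add (bd_int (bc t) μ) ((bd_int (bs t) μ).mul_const _)]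
      refine integral_congr_ae (Eventually.of_forall fun z => ?_)
      simp [Complex.exp_mul_I]
    rw [e, e, (key (bc t) x y).1 (by rw [hcos]), (key (bs t) x y).1 (by rw [hsin])]
  refine hc.of_sets (fun A hA => ?_) g hg
  have e : A.indicator (1 : ℝ → ℂ) = fun y => ((A.indicator (1 : ℝ → ℝ) y : ℝ) : ℂ) := by
    ext y; by_cases hy : y ∈ A <;> simp [hy]
  have hb : Bd fun y => ((A.indicator (1 : ℝ → ℝ) y : ℝ) : ℂ) := e ▸ bd_ind1 hA
  rw [e]
  ext y
  refine ext_inner_left ℂ fun x => Complex.ext ((key hb x y).2 (by rw [hm])) ?_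
  have := (key hb (Complex.I • x) y).2 (by rw [hm])
  simpa [inner_smul_left] using this

/-- commutation with the exponentials of a family which separates the points of a conull set -/
theorem IsP.comm_of_sep [CompleteSpace K] [StandardBorelSpace Y] {θ : POM Y K} (hθ : θ.IsP)
    {U : Set Y} (hU : MeasurableSet U) (h1 : θ.P U = 1) {ι : Type} [Countable ι]
    {D : ι → Y → ℝ} (hD : ∀ i, Measurable (D i))
    (sep : ∀ x ∈ U, ∀ y ∈ U, (∀ i, D i x = D i y) → x = y) {T : K →L[ℂ] K}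
    (h : ∀ i t, T * θ.f (ex t (D i)) = θ.f (ex t (D i)) * T) {g : Y → ℂ} (hg : Bd g) :
    T * θ.f g = θ.f g * T := by
  let Φ : Y → ι → ℝ := fun y i => D i y
  have hΦ : Measurable Φ := measurable_pi_lambda _ hD
  have h2 : ∀ i (J : Set ℝ), MeasurableSet J → T * θ.P (D i ⁻¹' J) = θ.P (D i ⁻¹' J) * T :=
    fun i J hJ => tw_of_ex (θ.map (D i) (hD i)) (θ.map (D i) (hD i)) T (h i) (bd_ind1 hJ)
  have hL : ∀ A, MeasurableSet A → MeasurableSet (Φ '' (A ∩ U)) := fun A hA =>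
    (hA.inter hU).image_of_measurable_injOn hΦ fun x hx y hy e =>
      sep x hx.2 y hy.2 fun i => congrFun e i
  let M : MeasurableSpace (ι → ℝ) :=
    { MeasurableSet' := fun J => MeasurableSet J ∧ T * θ.P (Φ ⁻¹' J) = θ.P (Φ ⁻¹' J) * T
      measurableSet_empty := ⟨.empty, by simp [θ.P_empty]⟩
      measurableSet_compl := fun J hJ => ⟨hJ.1.compl, by
        rw [preimage_compl, hθ.P_compl (hΦ hJ.1), mul_sub, sub_mul, hJ.2, mul_one, one_mul]⟩
      measurableSet_iUnion := fun J hJ => ⟨.iUnion fun n => (hJ n).1, by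
        have hm : ∀ n, MeasurableSet (accumulate J n) := fun n =>
          Finset.measurableSet_biUnion (Finset.Iic n) (fun i _ => (hJ i).1) |> fun h => by
            simpa [accumulate_def] using h
        have ha : ∀ n, T * θ.P (Φ ⁻¹' accumulate J n) = θ.P (Φ ⁻¹' accumulate J n) * T := by
          intro n
          induction n with
          | zero => simpa using (hJ 0).2
          | succ n ih =>
            have m1 := hΦ (hm n)
            have m2 := hΦ (hJ (n + 1)).1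
            rw [accumulate_succ, preimage_union, ← union_diff_self,
              θ.P_union m1 (m2.diff m1) disjoint_sdiff_right, diff_eq, hθ.P_inter m2 m1.compl,
              hθ.P_compl m1, mul_add, add_mul, ih, ← mul_assoc, (hJ (n + 1)).2, mul_assoc,
              mul_assoc, mul_sub, sub_mul, ih, mul_one, one_mul]
        ext ξ
        have t := θ.tendsto_P_iUnion (s := fun n => Φ ⁻¹' accumulate J n) (fun n => hΦ (hm n))
          (fun a b hab => preimage_mono (monotone_accumulate hab))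
        rw [← preimage_iUnion, iUnion_accumulate] at t
        refine tendsto_nhds_unique ((T.continuous.tendsto _).comp (t ξ)) ((t (T ξ)).congr fun n => ?_)
        exact (congrArg (fun X : K →L[ℂ] K => X ξ) (ha n)).symm⟩ }
  have h3 : MeasurableSpace.pi ≤ M := by
    refine iSup_le fun i => ?_
    rintro _ ⟨J, hJ, rfl⟩
    exact ⟨measurable_pi_apply i hJ, h2 i J hJ⟩
  refine comm_of_P (fun A hA => ?_) hg
  have h4 := hL A hA
  have h5 : θ.P A = θ.P (Φ ⁻¹' (Φ '' (A ∩ U))) := by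
    rw [← mul_one (θ.P A), ← mul_one (θ.P (Φ ⁻¹' _)), ← h1, ← hθ.P_inter hA hU,
      ← hθ.P_inter (hΦ h4) hU]
    congr 1
    ext x
    constructor
    · exact fun hx => ⟨⟨x, hx, rfl⟩, hx.2⟩
    · rintro ⟨⟨y, hy, e⟩, hx⟩
      rw [← sep y hy.2 x hx fun i => congrFun e i]
      exact hy
  rw [h5]
  exact (h3 _ h4).2

end POM

end Vale.Agent.P092RD
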