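import Vale.Agent.P092RD.Mag
import Vale.Agent.P092RG.Quo

/-!
P092 (helper77): the cone of a rank one group. Separation of points by first derivatives of the
pairing, orbits of the unipotent radical, null sets.
-/

set_option linter.all false

open scoped ENNReal NNReal
open Matrix Filter Topology MeasureTheory

namespace Vale.Agent.P092RD

open Vale.Agent.P092RG Vale.Agent.P092.H793.Re
open Vale.Agent.P092RK (Eu emb emb_mem ip_emb emb_surj)

/-- a separation datum from pointwise limits -/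
noncomputable def Sep.mk' {G' Z' ι : Type} [Group G'] [MeasurableSpace Z'] [MulAction G' Z']
    [MeasurableConstSMul G' Z'] {ℓ : Z' → ℝ} (mℓ : Measurable ℓ) {U : Set Z'} (h : ι → ℕ → G')
    (r : ℕ → ℝ) (tr : Tendsto r atTop atTop)
    (ex : ∀ i, ∀ ζ ∈ U, ∃ d, Tendsto (fun j => r j * (ℓ ((h i j)⁻¹ • ζ) - ℓ ζ)) atTop (𝓝 d))
    (sep : ∀ x ∈ U, ∀ y ∈ U, ℓ x = ℓ y → (∀ i d,
      Tendsto (fun j => r j * (ℓ ((h i j)⁻¹ • x) - ℓ x)) atTop (𝓝 d) →
      Tendsto (fun j => r j * (ℓ ((h i j)⁻¹ • y) - ℓ y)) atTop (𝓝 d)) → x = y) :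
    Sep G' ℓ U ι where
  h := h
  r := r
  D i ζ := limsup (fun j => r j * (ℓ ((h i j)⁻¹ • ζ) - ℓ ζ)) atTop
  mD i := Measurable.limsup fun j =>
    ((mℓ.comp (measurable_const_smul _)).sub mℓ).const_mul _
  tr := tr
  tD i ζ hζ := by
    obtain ⟨d, hd⟩ := ex i ζ hζ
    rw [hd.limsup_eq]; exact hd
  sep x hx y hy e e' := sep x hx y hy e fun i d hd => by
    obtain ⟨d', hd'⟩ := ex i y hy
    have := e' i
    rw [hd.limsup_eq, hd'.limsup_eq] at this
    rw [this]; exact hd'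

attribute [local instance] Matrix.linftyOpNormedRing Matrix.linftyOpNormedAlgebra

variable {n : ℕ} {G : Type} [Group G] [TopologicalSpace G]
variable {ρ : G →* SLn n} {w : Fin n → ℝ}

theorem deriv_ip {A B : ℝ → Mat n} {A' B' : Mat n} {t : ℝ} (hA : HasDerivAt A A' t)
    (hB : HasDerivAt B B' t) :
    HasDerivAt (fun s => ip (A s) (B s)) (ip A' (B t) + ip (A t) B') t := by
  let T : Mat n →L[ℝ] Mat n :=
    (Matrix.transposeLinearEquiv (Fin n) (Fin n) ℝ ℝ).toLinearMap.toContinuousLinearMap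
  let tr : Mat n →L[ℝ] ℝ := (Matrix.traceLinearMap (Fin n) ℝ ℝ).toContinuousLinearMap
  have h1 := tr.hasFDerivAt.comp_hasDerivAt t (hA.mul (T.hasFDerivAt.comp_hasDerivAt t hB))
  exact h1.congr_deriv (trace_add (A' * (B t)ᵀ) (A t * B'ᵀ))

variable (h : R1 ρ w)

theorem tr_Pb {Y : Mat n} (hY : Lie ρ Y) : (h.Pb * Y).trace =
    -(h.lam * h.dt) * (ip Y (diagonal w) / ip (diagonal w) (diagonal w)) := by
  have z : ∀ j : ℝ, j ≠ 0 → (h.Pb * cmp w j Y).trace = 0 := fun j hj =>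
    ((wt_pj _).mul (wt_cmp j Y)).trace (by rwa [zero_add])
  obtain ⟨S, -, hS, e⟩ := h.zero_decomp (h.cmp_mem 0 hY)
  conv_lhs => rw [h.decomp hY]
  simp only [Matrix.mul_add, trace_add]
  rw [z (-2) (by norm_num), z (-1) (by norm_num), z 1 one_ne_zero, z 2 two_ne_zero, e,
    Matrix.mul_add, trace_add, trace_mul_eq_ip _ S, hS, ip_neg_right, ip_sym_skew h.Pb_tr hS,
    Matrix.mul_smul, trace_smul, ip_cmp_zero]
  have : (h.Pb * diagonal w).trace = -h.lam * h.dt := by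
    unfold R1.Pb
    rw [pj_mul_H, trace_smul, smul_eq_mul]
    exact congrArg _ h.trace_Pb
  rw [this, smul_eq_mul]
  ring

theorem log_bd (g : G) : Real.log (h.bd g) = 1 / (2 * h.lam) *
    Real.log (ip (h.Pb * (ρ g).1 * h.Pt) (h.Pb * (ρ g).1 * h.Pt) / h.dt) := by
  have h0 : 0 ≤ ip (h.Pb * (ρ g).1 * h.Pt) (h.Pb * (ρ g).1 * h.Pt) / h.dt :=
    div_nonneg (ip_nonneg _) h.dt_pos.le
  unfold R1.bd
  rcases h0.eq_or_lt with h1 | h1
  · have := h.lam_pos
    rw [← h1, Real.zero_rpow (by positivity), Real.log_zero, mul_zero]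
  · exact Real.log_rpow h1 _

theorem deriv_bd {Y : Mat n} (hY : Lie ρ Y) :
    HasDerivAt (fun t : ℝ => Real.log (h.bd (ex ρ (t • Y) * h.w0)))
      (-(ip Y (diagonal w) / ip (diagonal w) (diagonal w))) 0 := by
  have e : ∀ t : ℝ, Real.log (h.bd (ex ρ (t • Y) * h.w0)) = 1 / (2 * h.lam) * Real.log
      (ip (h.Pb * NormedSpace.exp (t • Y) * h.Pb) (h.Pb * NormedSpace.exp (t • Y) * h.Pb) / h.dt) :=
    fun t => by
      rw [log_bd, vmul, ex_val (lie_smul _ hY), Matrix.mul_assoc, Matrix.mul_assoc, h.w0_Pt,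
        ← Matrix.mul_assoc, ← Matrix.mul_assoc, ip_ort_right (h.K_mul_tr h.w0_mem)]
  simp_rw [e]
  have h1 : HasDerivAt (fun t : ℝ => h.Pb * NormedSpace.exp (t • Y) * h.Pb) (h.Pb * Y * h.Pb) 0 := by
    have := ((hasDerivAt_exp_smul_const (𝕂 := ℝ) Y (0 : ℝ)).const_mul h.Pb).mul_const h.Pb
    rwa [zero_smul, NormedSpace.exp_zero, one_mul] at this
  have h2 := (deriv_ip h1 h1).div_const h.dt
  have h3 : h.Pb * NormedSpace.exp ((0 : ℝ) • Y) * h.Pb = h.Pb := by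
    rw [zero_smul, NormedSpace.exp_zero, Matrix.mul_one, h.Pb_Pb]
  have h4 : ip (h.Pb * Y * h.Pb) h.Pb = (h.Pb * Y).trace := by
    unfold ip
    rw [h.Pb_tr, Matrix.mul_assoc, h.Pb_Pb, trace_mul_comm, ← Matrix.mul_assoc, h.Pb_Pb]
  have h5 := h.dt_pos
  have h6 := h.lam_pos
  refine ((h2.log ?_).const_mul (1 / (2 * h.lam))).congr_deriv ?_
  · simp only [h3, h.ip_Pb]; positivity
  · simp only [h3, h.ip_Pb]
    rw [ip_comm h.Pb, h4, tr_Pb h hY]
    field_simp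
    ring

/-- the logarithm of the pairing with the base point -/
noncomputable def lz (z : h.Z) : ℝ := Real.log (h.dd ((1 : G) : h.Z) z)

/-- the big cell of the cone -/
def Uz : Set h.Z := {z | h.dir z ≠ ((1 : G) : h.Y)}

theorem dd_one (g : G) : h.dd ((1 : G) : h.Z) (g : h.Z) = h.bd g := by
  rw [h.dd_mk, inv_one, one_mul]

theorem lz_mk (g : G) : lz h (g : h.Z) = Real.log (h.bd g) := by rw [lz, dd_one]

theorem mem_Uz {g : G} : (g : h.Z) ∈ Uz h ↔ g ∉ h.P := by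
  show ¬ ((g : h.Y) = ((1 : G) : h.Y)) ↔ _
  rw [eq_comm, QuotientGroup.eq, inv_one, one_mul]

theorem mem_Uz' {z : h.Z} : z ∈ Uz h ↔ 0 < h.dd ((1 : G) : h.Z) z := by
  induction z using QuotientGroup.induction_on
  rw [mem_Uz, dd_one, ← h.bd_eq_zero, (h.bd_nonneg _).lt_iff_ne, ne_comm]

theorem cont_dd1 : Continuous fun z => h.dd ((1 : G) : h.Z) z :=
  h.continuous_dd.comp (f := fun z => (((1 : G) : h.Z), z)) (by fun_prop)

theorem isOpen_Uz : IsOpen (Uz h) := by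
  rw [show Uz h = {z | 0 < h.dd ((1 : G) : h.Z) z} from Set.ext fun z => mem_Uz' h]
  exact isOpen_lt continuous_const (cont_dd1 h)

theorem cell {z : h.Z} (hz : z ∈ Uz h) : ∃ p : h.EN,
    z = ((h.nE p * h.w0 * h.a (lz h z) : G) : h.Z) := by
  induction z using QuotientGroup.induction_on with
  | H g =>
    obtain ⟨u, hu, s, m, hm, u', hu', rfl⟩ := (h.bruhat' g).resolve_left ((mem_Uz h).1 hz)
    refine ⟨h.nC u, ?_⟩
    rw [lz_mk, h.bd_cell hu s hm hu', Real.log_exp, h.nE_nC hu, h.mkZ_mul (h.N_le_MN hu'),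
      h.mkZ_mul (h.M_le_MN hm)]

theorem lz_dl (s : ℝ) {z : h.Z} (hz : z ∈ Uz h) : lz h (h.dl s z) = lz h z + s := by
  rw [lz, h.dd_dl_right, Real.log_mul (Real.exp_pos s).ne' ((mem_Uz' h).1 hz).ne', Real.log_exp,
    add_comm]
  rfl

theorem lz_a (s : ℝ) {z : h.Z} (hz : z ∈ Uz h) : lz h ((h.a s)⁻¹ • z) = lz h z + s := by
  induction z using QuotientGroup.induction_on with
  | H g =>
    rw [h.smul_mkZ, lz_mk, lz_mk, ← h.a_neg, h.bd_a_mul, neg_neg,
      Real.log_mul (Real.exp_pos s).ne' (h.bd_pos ((mem_Uz h).1 hz)).ne', Real.log_exp, add_comm]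

theorem dd_MN {x : G} (hx : x ∈ h.MN) (z : h.Z) :
    h.dd ((1 : G) : h.Z) (x • z) = h.dd ((1 : G) : h.Z) z := by
  induction z using QuotientGroup.induction_on with
  | H g => rw [h.smul_mkZ, dd_one, dd_one, h.bd_MN_mul hx]

theorem lz_MN {x : G} (hx : x ∈ h.MN) (z : h.Z) : lz h (x • z) = lz h z := by
  rw [lz, dd_MN h hx]; rfl

theorem tendsto_inv_succ : Tendsto (fun j : ℕ => ((j : ℝ) + 1)⁻¹) atTop (𝓝[≠] 0) :=
  tendsto_nhdsWithin_iff.2 ⟨by simpa using tendsto_one_div_add_atTop_nhds_zero_nat (𝕜 := ℝ),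
    Eventually.of_forall fun j => by
      show _ ≠ (0 : ℝ)
      positivity⟩

theorem tendsto_lz {X : Mat n} (hX : Lie ρ X) {u : G} (hu : u ∈ h.N) (s : ℝ) :
    Tendsto (fun j : ℕ => ((j : ℝ) + 1) * (lz h (ex ρ (((j : ℝ) + 1)⁻¹ • X) •
      ((u * h.w0 * h.a s : G) : h.Z)) - lz h ((u * h.w0 * h.a s : G) : h.Z))) atTop
      (𝓝 (-(ip (Ad ρ u (diagonal w)) Xᵀ / ip (diagonal w) (diagonal w)))) := by
  have hY := lie_Ad u⁻¹ hX
  have h1 := (deriv_bd h hY).tendsto_slope_zero.comp tendsto_inv_succ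
  have e : ip (Ad ρ u⁻¹ X) (diagonal w) = ip (Ad ρ u (diagonal w)) Xᵀ := by
    rw [← trace_mul_eq_ip, ← Ad_trace u⁻¹, Ad_mm, Ad_inv_Ad, trace_mul_comm, trace_mul_eq_ip,
      diagonal_transpose]
  rw [e] at h1
  have c : ContinuousAt (fun t : ℝ => h.bd (ex ρ (t • Ad ρ u⁻¹ X) * h.w0)) 0 := by
    haveI := topGroup h.rs.emb
    exact (h.continuous_bd.comp ((h.continuous_ex (continuous_id.smul continuous_const)
      fun t => lie_smul t hY).mul continuous_const)).continuousAt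
  have c0 : h.bd (ex ρ ((0 : ℝ) • Ad ρ u⁻¹ X) * h.w0) = 1 := by
    rw [zero_smul, h.ex_zero, one_mul, h.bd_w0]
  have c1 := (c.tendsto.comp (tendsto_nhds_of_tendsto_nhdsWithin tendsto_inv_succ)).eventually
    (lt_mem_nhds (show (0 : ℝ) < _ from c0.symm ▸ one_pos))
  refine h1.congr' (c1.mono fun j hj => ?_)
  simp only [Function.comp, zero_add, inv_inv, smul_eq_mul] at hj ⊢
  have e2 : ex ρ (((j : ℝ) + 1)⁻¹ • X) * (u * h.w0 * h.a s)
      = u * (ex ρ (((j : ℝ) + 1)⁻¹ • Ad ρ u⁻¹ X) * h.w0) * h.a s := by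
    rw [← Ad_smul, h.ex_Ad _ (lie_smul _ hX)]; group
  rw [c0, h.smul_mkZ, lz_mk, lz_mk, e2, h.bd_mul_a, h.bd_mul_a, h.bd_N_mul hu, h.bd_N_mul hu,
    h.bd_w0, mul_one, Real.log_mul (Real.exp_pos s).ne' hj.ne', Real.log_one]
  ring

/-- lower triangular directions -/
noncomputable def lo (p : h.EN) : Mat n := (h.e1 p.1 + emb h p.2)ᵀ

theorem lie_lo (p : h.EN) : Lie ρ (lo h p) :=
  h.lie_tr (h.lie_add' (h.e1_mem _).1 (emb_mem h _).1)

theorem eq_of_lo {u u' : G} (hu : u ∈ h.N) (hu' : u' ∈ h.N) (e : ∀ p : h.EN,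
    ip (Ad ρ u (diagonal w)) (lo h p)ᵀ = ip (Ad ρ u' (diagonal w)) (lo h p)ᵀ) : u = u' := by
  refine h.N_ext hu hu' (sub_eq_zero.1 (eq_zero_of_ip ?_))
  have e1 : Ad ρ u (diagonal w) - Ad ρ u' (diagonal w) = (lo h (h.l1 (h.nX u' - h.nX u),
      h.l2 ((2 : ℝ) • h.nZ u' - (2 : ℝ) • h.nZ u)))ᵀ := by
    rw [lo, transpose_transpose, h.e1_l1 (sub_mem (h.nX_mem _) (h.nX_mem _)),
      h.e2_l2 (sub_mem (Submodule.smul_mem _ _ (h.nZ_mem _)) (Submodule.smul_mem _ _ (h.nZ_mem _))),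
      h.Ad_P_H' (h.N_le_P hu), h.Ad_P_H' (h.N_le_P hu')]
    abel
  conv_lhs => arg 2; rw [e1]
  rw [ip_sub_left, e, sub_self]

variable [MeasurableSpace G] [BorelSpace G]

theorem meas_lz : Measurable (lz h) := Real.measurable_log.comp (cont_dd1 h).measurable

theorem meas_Uz : MeasurableSet (Uz h) := (isOpen_Uz h).measurableSet

instance : PolishSpace h.Y := by
  letI := TopologicalSpace.metrizableSpaceMetric h.Y
  infer_instance

instance : PolishSpace h.Z := h.zH.symm.isClosedEmbedding.polishSpace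

instance : MeasurableSMul₂ G h.Z := by
  haveI := secCount h.rs.emb
  infer_instance

instance : MeasurableSMul₂ G h.Y := by
  haveI := secCount h.rs.emb
  infer_instance

omit [MeasurableSpace G] [BorelSpace G] in
theorem tendsto_lz' (q p : h.EN) (s : ℝ) :
    Tendsto (fun j : ℕ => ((j : ℝ) + 1) * (lz h ((ex ρ (((j : ℝ) + 1)⁻¹ • lo h q))⁻¹⁻¹ •
      ((h.nE p * h.w0 * h.a s : G) : h.Z)) - lz h ((h.nE p * h.w0 * h.a s : G) : h.Z))) atTop
      (𝓝 (-(ip (Ad ρ (h.nE p) (diagonal w)) (lo h q)ᵀ / ip (diagonal w) (diagonal w)))) := by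
  simp only [inv_inv]
  exact tendsto_lz h (lie_lo h _) (h.nE_mem p) s

omit [MeasurableSpace G] [BorelSpace G] in
theorem eq_of_dense {p q : h.EN} (e : ∀ i : ℕ,
    -(ip (Ad ρ (h.nE p) (diagonal w)) (lo h (TopologicalSpace.denseSeq h.EN i))ᵀ /
      ip (diagonal w) (diagonal w)) =
    -(ip (Ad ρ (h.nE q) (diagonal w)) (lo h (TopologicalSpace.denseSeq h.EN i))ᵀ /
      ip (diagonal w) (diagonal w))) : h.nE p = h.nE q := by
  have c : ∀ u : G, Continuous fun p : h.EN => ip (Ad ρ u (diagonal w)) (lo h p)ᵀ := fun u =>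
    continuous_ip continuous_const (((h.continuous_e1.comp continuous_fst).add
      (h.continuous_e2.comp continuous_snd)).matrix_transpose.matrix_transpose)
  exact eq_of_lo h (h.nE_mem p) (h.nE_mem q) (congrFun ((TopologicalSpace.denseRange_denseSeq
    h.EN).equalizer (c _) (c _) (funext fun i =>
      (div_left_inj' h.h2_pos.ne').1 (neg_injective (e i)))))

/-- **first derivatives of the pairing separate the points of the big cell** -/
noncomputable def sepZ : Sep G (lz h) (Uz h) ℕ :=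
  Sep.mk' (meas_lz h) (fun i j => (ex ρ (((j : ℝ) + 1)⁻¹ •
    lo h (TopologicalSpace.denseSeq h.EN i)))⁻¹) (fun j => (j : ℝ) + 1)
    (tendsto_atTop_add_const_right _ _ tendsto_natCast_atTop_atTop)
    (fun i ζ hζ => by
      obtain ⟨p, e⟩ := cell h hζ
      have := tendsto_lz' h (TopologicalSpace.denseSeq h.EN i) p (lz h ζ)
      rw [← e] at this
      exact ⟨_, this⟩)
    (fun x hx y hy e e' => by
      obtain ⟨p, e1⟩ := cell h hx
      obtain ⟨q, e2⟩ := cell h hy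
      have := eq_of_dense h (p := p) (q := q) fun i => by
        have a := tendsto_lz' h (TopologicalSpace.denseSeq h.EN i) p (lz h x)
        have b := tendsto_lz' h (TopologicalSpace.denseSeq h.EN i) q (lz h y)
        rw [← e1] at a
        rw [← e2] at b
        exact tendsto_nhds_unique (e' i _ a) b
      rw [e1, this, e, ← e2])

/-- an exhaustion of the big cell -/
def Tz (m : ℕ) : Set h.Z := {z | h.ht z ≤ m ∧ Real.exp (-m) ≤ h.dd ((1 : G) : h.Z) z}

theorem meas_Tz (m : ℕ) : MeasurableSet (Tz h m) :=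
  ((isClosed_le h.continuous_ht continuous_const).inter
    (isClosed_le continuous_const (cont_dd1 h))).measurableSet

theorem mono_Tz : Monotone (Tz h) := fun m m' e z hz =>
  ⟨hz.1.trans (Nat.cast_le.2 e), (Real.exp_le_exp.2 (neg_le_neg (Nat.cast_le.2 e))).trans hz.2⟩

theorem union_Tz : ⋃ m, Tz h m = Uz h := by
  ext z
  rw [Set.mem_iUnion, mem_Uz']
  refine ⟨fun ⟨m, hm⟩ => (Real.exp_pos _).trans_le hm.2, fun hz => ?_⟩
  obtain ⟨m, hm⟩ := exists_nat_ge (max (h.ht z) (-Real.log (h.dd ((1 : G) : h.Z) z)))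
  refine ⟨m, (le_max_left _ _).trans hm, ?_⟩
  rw [← Real.exp_log hz]
  exact Real.exp_le_exp.2 (neg_le.1 ((le_max_right _ _).trans hm))

/-- **orbits of `N` meet the exhaustion in bounded measure** -/
theorem orbit_Tz (m : ℕ) : ∃ c : ℝ≥0∞, c ≠ ∞ ∧
    ∀ ζ : h.Z, volume {p : h.EN | (h.nE p)⁻¹ • ζ ∈ Tz h m} ≤ c := by
  obtain ⟨c, C, hc, -, h1⟩ := h.bd_gau
  let R : ℝ := Real.sqrt (Real.exp (2 * m) / c)
  refine ⟨volume {p : h.EN | h.gau p ≤ R}, (h.isCompact_gau R).measure_lt_top.ne, fun ζ => ?_⟩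
  by_cases hζ : ζ ∈ Uz h
  · obtain ⟨q, e⟩ := cell h hζ
    generalize lz h ζ = s at e
    subst e
    have mp := (h.mp_mulE_right q).comp h.mp_neg
    rw [← mp.measure_preimage (h.isCompact_gau R).measurableSet.nullMeasurableSet]
    refine measure_mono fun p hp => ?_
    obtain ⟨a1, a2⟩ := hp
    rw [h.smul_mkZ, ← mul_assoc, ← mul_assoc, ← h.nE_neg, h.nE_mul] at a1 a2
    rw [h.ht_mk, h.hs_mul_a] at a1
    rw [dd_one, h.bd_mul_a, h.bd_N_mul (h.nE_mem _), h.bd_w0, mul_one, Real.exp_le_exp] at a2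
    have a3 := (h1 (h.mulE (-p) q)).1.trans (h.bd_le_hs _)
    rw [h.hs_K_mul h.w0_mem] at a3
    refine Real.le_sqrt_of_sq_le ((le_div_iff₀' hc).2 (a3.trans (Real.exp_le_exp.2 ?_)))
    linarith
  · rw [Set.eq_empty_of_forall_notMem (s := {p : h.EN | (h.nE p)⁻¹ • ζ ∈ Tz h m}) fun p hp =>
      hζ ((mem_Uz' h).2 (by
        rw [← dd_MN h (h.MN.inv_mem (h.N_le_MN (h.nE_mem p)))]
        exact (Real.exp_pos _).trans_le hp.2)), measure_empty]
    exact zero_le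

theorem null_Uz [IsTopologicalGroup G] [SecondCountableTopology G] [LocallyCompactSpace G]
    (μ : Measure G) [μ.IsHaarMeasure] (ζ : h.Z) : μ {g | g⁻¹ • ζ ∉ Uz h} = 0 := by
  induction ζ using QuotientGroup.induction_on with
  | H x =>
    refine measure_mono_null (fun g hg => ?_) (ae_iff.1 (h.ae_haar_bd μ x⁻¹ 1))
    intro h0
    refine hg ((mem_Uz' h).2 ?_)
    rwa [h.smul_mkZ, dd_one, ← h.bd_inv, _root_.mul_inv_rev, inv_inv, ← mul_one (x⁻¹ * g)]

end Vale.Agent.P092RD
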