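import Vale.Agent.P092RD.Sep
import Vale.Agent.P092RS.Defs

/-!
P092 (helper77): rank one, the translates of the cone calculus commute (block BCOM).
-/

set_option linter.all false

open scoped InnerProductSpace ENNReal NNReal
open MeasureTheory Filter Topology ContinuousLinearMap Set

namespace Vale.Agent.P092RD

open Vale.Agent.P092CP Vale.Agent.P092RG Vale.Agent.P092.H793.Re
open Vale.Agent.P092RS (Th NI Erg Comm ad BCOM)
open Vale.Agent.P092.RC (Cm)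

variable {n n' : ℕ} {G G' K : Type} [Group G] [TopologicalSpace G] [IsTopologicalGroup G]
  [LocallyCompactSpace G] [SecondCountableTopology G] [T2Space G] [MeasurableSpace G]
  [BorelSpace G] [Group G'] [TopologicalSpace G'] [IsTopologicalGroup G']
  [LocallyCompactSpace G'] [SecondCountableTopology G'] [T2Space G'] [MeasurableSpace G']
  [BorelSpace G'] [NormedAddCommGroup K] [InnerProductSpace ℂ K] [CompleteSpace K]
  {ρ : G →* SLn n} {w : Fin n → ℝ} {ρ' : G' →* SLn n'} {w' : Fin n' → ℝ} {μ : Measure G}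
  {μ' : Measure G'} [μ.IsHaarMeasure] [μ'.IsHaarMeasure] {W : Set (K →L[ℂ] K)}
  {h : R1 ρ w} {h' : R1 ρ' w'} {C : Cpl μ μ' W} {θ : POM h'.Z K}

theorem th_P (t : Th h h' C θ) {p : G} (hp : p ∈ h.P) {F : h'.Z → ℂ} (hF : Bd F) :
    C.s.π p * θ.f F * C.s.π p⁻¹ = θ.f (F ∘ h'.dl (h.hs p)) := by
  obtain ⟨m, hm, s, u, hu, rfl⟩ := h.P_decomp' hp
  rw [h.hs_kan hm.1 s hu, ← C.s.conj_conj, ← C.s.conj_conj]
  have a := t.mn u (h.N_le_MN hu) F hF
  have b := t.aa s F hF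
  have c := t.mn m (h.M_le_MN hm) _ (bd_comp hF (h'.continuous_dl' s).measurable)
  unfold ad at a b c
  rw [a, b]
  exact c

theorem th_shift (t : Th h h' C θ) {p : G} (hp : p ∈ h.P) :
    Shift C.s.π θ (lz h') (Uz h') (lz h) (Uz h) p := by
  refine ⟨h.hs p, h'.dl (h.hs p), (h'.continuous_dl' _).measurable, fun F hF => th_P t hp hF,
    fun ζ hζ => lz_dl h' _ hζ, fun ζ hζ => ?_⟩
  induction ζ using QuotientGroup.induction_on with
  | H g =>
    rw [h.smul_mkZ, lz_mk, lz_mk, h.bd_P_mul (h.P.inv_mem hp), h.hs_inv_P hp, neg_neg,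
      Real.log_mul (Real.exp_pos _).ne' (h.bd_pos ((mem_Uz h).1 hζ)).ne', Real.log_exp, add_comm]

theorem th_U (t : Th h h' C θ) : θ.P (Uz h') = 1 :=
  conull t.isP C.t t.cov (meas_Uz h') (null_Uz h' μ')

/-- the magic relation -/
theorem th_magic {θ' : POM h.Z K} (t : Th h h' C θ) (t' : Th h' h C.swap θ') (e : Erg h h' C)
    (s : ℝ) : ∃ c : ℂ, θ.f (POM.ex s (lz h')) = c • θ'.f (POM.ex s (lz h)) :=
  magic0 C t.isP t'.isP t.cm t'.cm t.cov t'.cov (meas_lz h') (meas_lz h) (meas_Uz h') (meas_Uz h)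
    (th_U t) (th_U t') (S := h.B) (S' := h'.P) (fun g hg => th_shift t (h.B_le_P hg))
    (fun g hg => th_shift t' hg)
    (fun x hx h1 h2 => e x hx (fun g hg => conj_of_comm (h1 g hg))
      fun g hg => conj_of_comm (h2 g hg)) s

theorem ni_T {θ' : POM h.Z K} (S : Side μ W) (hθ : θ'.IsP) (cov : Cov S.π θ') (m : ℕ) :
    ∃ κ : ℂ, κ ≠ 0 ∧ NI h S (κ • θ'.P (Tz h m)) := by
  obtain ⟨c, hc, h1⟩ := orbit_Tz h m
  have hT := meas_Tz h m
  have mA : MeasurableSet {q : h.EN × h.Z | (h.nE q.1)⁻¹ • q.2 ∈ Tz h m} :=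
    ((h.measurable_nE.comp measurable_fst).inv.smul measurable_snd) hT
  have a3 : ∀ η : K, ∫⁻ p : h.EN, ‖θ'.P (Tz h m) (S.π (h.nE p) η)‖ₑ ^ 2 ≤ c * ‖η‖ₑ ^ 2 := fun η => by
    have e : ∀ p : h.EN, ‖θ'.P (Tz h m) (S.π (h.nE (-p)) η)‖ₑ ^ 2
        = θ'.ν η {ζ | (h.nE p)⁻¹ • ζ ∈ Tz h m} := fun p => by
      rw [hθ.enorm_P_sq hT, h.nE_neg, cov.ν S _ hT]
      rfl
    have m1 : Measurable fun p : h.EN => ‖θ'.P (Tz h m) (S.π (h.nE p) η)‖ₑ ^ 2 :=
      (S.meas_π _ η).comp h.measurable_nE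
    rw [← h.mp_neg.lintegral_comp m1]
    simp only [e]
    have := Measure.prod_apply (μ := (volume : Measure h.EN)) (ν := θ'.ν η) mA
    refine (le_of_eq this.symm).trans ?_
    rw [Measure.prod_apply_symm mA, ← hθ.ν_univ, ← lintegral_const]
    exact lintegral_mono fun ζ => h1 ζ
  lift c to ℝ≥0 using hc
  have h0 : (0 : ℝ≥0) < c + 1 := by positivity
  refine ⟨(((c + 1)⁻¹ : ℝ≥0) : ℝ), by exact_mod_cast (inv_pos.2 h0).ne', fun ξ => ?_⟩
  simp only [smul_apply, enorm_smul, mul_pow]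
  rw [lintegral_const_mul' _ _ (by finiteness)]
  refine (mul_le_mul_right (a3 ξ) _).trans ?_
  rw [← mul_assoc]
  refine mul_le_of_le_one_left' ?_
  rw [← ofReal_norm, Complex.norm_real, NNReal.norm_eq, ENNReal.ofReal_coe_nnreal]
  norm_cast
  rw [sq, mul_assoc]
  exact mul_le_one' (inv_le_one_of_one_le₀ le_add_self)
    ((inv_mul_le_iff₀ h0).2 (by rw [mul_one]; exact le_self_add))

theorem th_hs {θ' : POM h.Z K} (t : Th h h' C θ) (t' : Th h' h C.swap θ') {L : Set h'.Z}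
    (hL : IsCompact L) (m : ℕ) : C.t.Tr (θ.P L * θ'.P (Tz h m)) ≠ ∞ := by
  obtain ⟨κ, h0, h1⟩ := ni_T C.s t'.isP t'.cov m
  obtain ⟨c, hc, h2⟩ := t.fin L hL
  have h3 := h2 (κ • θ'.P (Tz h m)) (cm_smul κ (t'.cm _ (bd_ind1 (meas_Tz h m)))) h1
  rw [← star_eq_adjoint, star_smul, θ'.star_P (meas_Tz h m), mul_smul_comm, C.t.Tr_smul] at h3
  intro h4
  rw [h4, ENNReal.mul_top (pow_ne_zero _ (by simpa using h0))] at h3
  exact hc (top_le_iff.1 h3)

theorem th_comm {θ' : POM h.Z K} (t : Th h h' C θ) (t' : Th h' h C.swap θ') (e : Erg h h' C) :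
    Comm C θ := fun g F F' hF hF' =>
  (comm_all C t.isP t'.isP t.cm t'.cm t.cov t'.cov (meas_lz h') (meas_lz h) (th_magic t t' e)
    (meas_Uz h') (th_U t) (sepZ h') (S := fun k => {z | |h'.ht z| ≤ k}) (T := Tz h)
    (fun k => (h'.isCompact_ht k).measurableSet) (meas_Tz h)
    (fun k k' hk z hz => le_trans (show |h'.ht z| ≤ k from hz) (Nat.cast_le.2 hk)) (mono_Tz h)
    (by rw [show ⋃ k : ℕ, {z | |h'.ht z| ≤ k} = univ from
      eq_univ_of_forall fun z => mem_iUnion.2 (exists_nat_ge |h'.ht z|), t.isP.P_univ])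
    (by rw [union_Tz, th_U t']) (fun k m => th_hs t t' (h'.isCompact_ht k) m) g hF' hF).symm

/-- **block MAGIC and COMM** -/
theorem bcom : BCOM := by
  intro n n' G G' K _ _ _ _ _ _ _ _ _ _ _ _ _ _ _ _ _ _ _ ρ w ρ' w' μ μ' _ _ W h h' C h1 h2
    θ θ' t t' e
  exact th_comm t t' e

end Vale.Agent.P092RD
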