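import Vale.Agent.P092RD.Agr
import Vale.Agent.P092RD.Com
import Vale.Agent.P092RS.Main
import Vale.Agent.P092RG.Cell
import Vale.Agent.P092RG.QuoM

/-!
P092 (helper77): rank one, the output (block BAGR).
-/

set_option linter.all false

open scoped InnerProductSpace ENNReal NNReal
open MeasureTheory Filter Topology ContinuousLinearMap Set

namespace Vale.Agent.P092RD

open Vale.Agent.P092CP Vale.Agent.P092RG Vale.Agent.P092.H793.Re
open Vale.Agent.P092RS (Th Comm ad Uq Out BAGR)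
open Vale.Agent.P092.RC (Cm Moore)

variable {n n' : ℕ} {G G' K : Type} [Group G] [TopologicalSpace G] [IsTopologicalGroup G]
  [LocallyCompactSpace G] [SecondCountableTopology G] [T2Space G] [MeasurableSpace G]
  [BorelSpace G] [Group G'] [TopologicalSpace G'] [IsTopologicalGroup G']
  [LocallyCompactSpace G'] [SecondCountableTopology G'] [T2Space G'] [MeasurableSpace G']
  [BorelSpace G'] [NormedAddCommGroup K] [InnerProductSpace ℂ K] [CompleteSpace K]
  {ρ : G →* SLn n} {w : Fin n → ℝ} {ρ' : G' →* SLn n'} {w' : Fin n' → ℝ} {μ : Measure G}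
  {μ' : Measure G'} [μ.IsHaarMeasure] [μ'.IsHaarMeasure] {W : Set (K →L[ℂ] K)}
  {h : R1 ρ w} {h' : R1 ρ' w'} {C : Cpl μ μ' W} {θ : POM h'.Z K}

theorem tendsto_dil (h : R1 ρ w) (p : h.EN) :
    Tendsto (fun s => h.nE (h.dil (-s) p)) atTop (𝓝 1) := by
  rw [← h.nE_zero]
  refine h.continuous_nE.continuousAt.tendsto.comp ?_
  have h1 := Real.tendsto_exp_atBot.comp tendsto_neg_atTop_atBot
  have h2 := Real.tendsto_exp_atBot.comp
    (tendsto_neg_atTop_atBot.const_mul_atBot (show (0 : ℝ) < 2 by norm_num))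
  have := (h1.smul_const p.1).prodMk_nhds (h2.smul_const p.2)
  rwa [zero_smul, zero_smul] at this

/-- the split torus has the Moore property -/
theorem moore_a (h : R1 ρ w) : Moore (range h.a) := by
  intro E _ _ _ u hn hc ξ hξ
  have key : ∀ (x : G) (b : ℝ → ℝ), Tendsto (fun s => (h.a (b s))⁻¹ * x * h.a (b s)) atTop (𝓝 1) →
      u x ξ = ξ := fun x b hb => by
    have h1 := ((hc ξ).continuousAt.tendsto.comp hb).sub_const ξ |>.norm
    have e : ∀ s, ‖u ((h.a (b s))⁻¹ * x * h.a (b s)) ξ - ξ‖ = ‖u x ξ - ξ‖ := fun s => by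
      rw [← hn (h.a (b s)), map_sub, pi_ap, ← mul_assoc, mul_inv_cancel_left, ← pi_ap,
        hξ _ (mem_range_self _)]
    simp only [Function.comp, e, map_one, oapp, sub_self, norm_zero] at h1
    exact sub_eq_zero.1 (norm_eq_zero.1 (tendsto_nhds_unique tendsto_const_nhds h1))
  let H : Subgroup G :=
    { carrier := {x | u x ξ = ξ}
      one_mem' := by show u 1 ξ = ξ; rw [map_one, oapp]
      mul_mem' := fun {x y} hx hy => by
        show u (x * y) ξ = ξ
        rw [← pi_ap, show u y ξ = ξ from hy]; exact hx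
      inv_mem' := fun {x} hx => by
        show u x⁻¹ ξ = ξ
        conv_lhs => rw [← show u x ξ = ξ from hx, pi_inv_ap] }
  have h1 : h.N ⊔ h.Nb ≤ H := sup_le (fun x hx => key x id ((tendsto_dil h (h.nC x)).congr
    fun s => by rw [← h.a_conj_nE, h.nE_nC hx, h.a_neg, inv_inv]; rfl)) fun x hx => by
      have h2 := h.mem_Nb.1 hx
      refine key x Neg.neg ?_
      have := ((tendsto_dil h (h.nC (h.w0⁻¹ * x * h.w0))).const_mul h.w0).mul_const h.w0⁻¹
      rw [mul_one, mul_inv_cancel] at this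
      refine this.congr fun s => ?_
      rw [← h.a_conj_nE, h.nE_nC h2]
      conv_rhs => rw [h.a_neg_eq]
      rw [h.a_neg]
      group
  rw [h.gen_N_Nb] at h1
  exact fun g => h1 (Subgroup.mem_top g)

/-- the boundary measure -/
noncomputable def bdy (h' : R1 ρ' w') (θ : POM h'.Z K) : POM h'.Y K :=
  θ.map h'.dir h'.continuous_dir.measurable

theorem bdy_f (F : h'.Y → ℂ) : (bdy h' θ).f F = θ.f (F ∘ h'.dir) := rfl

theorem bd_dir {F : h'.Y → ℂ} (hF : Bd F) : Bd (F ∘ h'.dir) :=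
  bd_comp hF h'.continuous_dir.measurable

theorem bdy_cov (t : Th h h' C θ) : Cov C.t.π (bdy h' θ) := fun x F hF =>
  (t.cov x _ (bd_dir hF)).trans (congrArg _ (funext fun z => congrArg F (h'.dir_smul _ z)))

theorem bdy_P (t : Th h h' C θ) {p : G} (hp : p ∈ h.P) {F : h'.Y → ℂ} (hF : Bd F) :
    C.s.π p * (bdy h' θ).f F * C.s.π p⁻¹ = (bdy h' θ).f F :=
  (th_P t hp (bd_dir hF)).trans (congrArg _ (funext fun z => congrArg F (h'.dir_dl _ z)))

theorem tr_P (t : Th h h' C θ) (g : G) {p : G} (hp : p ∈ h.P) {F : h'.Y → ℂ} (hF : Bd F) :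
    (tr C.s (g * p) (bdy h' θ)).f F = (tr C.s g (bdy h' θ)).f F := by
  rw [tr_f, tr_f, ← C.s.conj_conj, bdy_P t hp hF]

theorem agr_congr {Y : Type} [MeasurableSpace Y] {E₁ E₂ E₃ E₄ : POM Y K}
    (e : ∀ F, Bd F → E₁.f F = E₃.f F) (e' : ∀ F, Bd F → E₂.f F = E₄.f F) :
    agr E₁ E₂ = agr E₃ E₄ := Submodule.ext fun ξ => forall₂_congr fun F hF => by
  rw [e F hF, e' F hF]

theorem agr_w0 (t : Th h h' C θ) :
    agr (tr C.s 1 (bdy h' θ)) (tr C.s h.w0 (bdy h' θ)) = ⊥ := by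
  have cm : ∀ g F, Bd F → Cm W ((tr C.s g (bdy h' θ)).f F) := fun g F hF =>
    C.s.conj _ (t.cm _ (bd_dir hF)) g
  refine (agr_dich C (moore_a h) (cm _) (cm _) (cov_tr C _ (bdy_cov t)) (cov_tr C _ (bdy_cov t))
    ?_ ?_).resolve_right fun e => ?_
  · rintro _ ⟨s, rfl⟩ F hF
    rw [tr_f, C.s.conj_conj, mul_one, ← tr_f, ← one_mul (h.a s), tr_P t _ (h.a_mem_P s) hF, tr_f]
  · rintro _ ⟨s, rfl⟩ F hF
    have e : h.a s * h.w0 = h.w0 * h.a (-s) := by rw [h.w0_a, neg_neg]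
    rw [tr_f, C.s.conj_conj, e, ← tr_f, tr_P t _ (h.a_mem_P _) hF, tr_f]
  · have inv : ∀ g F, Bd F → C.s.π g * (bdy h' θ).f F * C.s.π g⁻¹ = (bdy h' θ).f F := fun g F hF => by
      rcases h.bruhat g with hg | ⟨u, hu, p, hp, rfl⟩
      · exact bdy_P t hg hF
      · have := e F hF
        rw [tr_f, tr_f, inv_one, map_one, one_mul, mul_one] at this
        rw [← C.s.conj_conj, ← C.s.conj_conj, bdy_P t hp hF, ← this, bdy_P t (h.N_le_P hu) hF]
    have h1 := h'.no_inv _ (inv_of_fix C (fun F hF => t.cm _ (bd_dir hF)) (bdy_cov t) inv)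
    have h2 := (t.isP.map h'.continuous_dir.measurable).ν_univ C.s.Ω
    change (bdy h' θ).ν C.s.Ω univ = _ at h2
    rw [h1, ← ofReal_norm, C.s.nΩ] at h2
    simp at h2

theorem agr_of (t : Th h h' C θ) {x y : G} (e : x⁻¹ * y ∉ h.P) :
    agr (tr C.s x (bdy h' θ)) (tr C.s y (bdy h' θ)) = ⊥ := by
  obtain ⟨u, hu, p, hp, e1⟩ := (h.bruhat _).resolve_left e
  rw [← agr_tr C.s (x * u) _ _ (agr_w0 t)]
  refine agr_congr (fun F hF => ?_) fun F hF => ?_
  · rw [mul_one, tr_P t x (h.N_le_P hu) hF]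
  · rw [← tr_P t (x * u * h.w0) hp hF, mul_assoc x, mul_assoc x, ← e1, mul_inv_cancel_left]

theorem th_out (t : Th h h' C θ) (c : Comm C θ) (u : Uq h h' C fun f => θ.f fun z => f (h'.dir z)) :
    ∃ Φ, Out h h' C Φ := by
  have hE : (bdy h' θ).IsP := t.isP.map _
  refine ⟨hE.hom, fun f => t.cm _ (bd_dir (bd_c f)), fun x f f' e => ?_,
    fun p hp f => bdy_P t hp (bd_c f), u,
    fun g f f' => c g _ _ (bd_dir (bd_c f)) (bd_dir (bd_c f')), ?_⟩
  · refine (bdy_cov t x _ (bd_c f)).trans (congrArg _ (funext fun y => ?_))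
    rw [← e, smul_inv_smul]
  · obtain ⟨v, hv, h1⟩ := h.exists_N_ne
    let g : Fin 3 → G := ![1, h.w0, v * h.w0]
    obtain ⟨f, f1, f2, f3⟩ := exists_three (E := fun i => tr C.s (g i) (bdy h' θ))
      (fun i => isP_tr _ _ hE)
      (fun i j F F' hF hF' => by
        have := comm_conj C.s (g i) (c ((g i)⁻¹ * g j) _ _ (bd_dir hF) (bd_dir hF'))
        unfold ad at this
        rwa [C.s.conj_conj, mul_inv_cancel_left] at this)
      (agr_of t (by show (1 : G)⁻¹ * h.w0 ∉ h.P; rw [inv_one, one_mul]; exact h.w0_not_mem))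
      (agr_of t (by
        show (1 : G)⁻¹ * (v * h.w0) ∉ h.P
        rw [inv_one, one_mul, ← h.bd_eq_zero, h.bd_N_mul hv, h.bd_w0]
        exact one_ne_zero))
      (agr_of t (fun h2 => h1 (h.eq_one_of_smul_y1 hv (QuotientGroup.eq.2 h2).symm)))
      (fun h0 => by
        have := C.s.nΩ
        rw [← oapp C.s.Ω, h0, zero_apply, norm_zero] at this
        exact zero_ne_one this)
    exact ⟨g, f, f1, f2, f3⟩

/-- **block AGR** -/
theorem bagr : BAGR := by
  intro n n' G G' K _ _ _ _ _ _ _ _ _ _ _ _ _ _ _ _ _ _ _ ρ w ρ' w' μ μ' _ _ W h h' C h1 h2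
    θ t c u
  exact th_out t c u

end Vale.Agent.P092RD
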