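import Vale.Agent.P092RD.D7

/-!
P092 (helper77): commutation of the translates of a boundary measure, with an abstract family of
Hilbert-Schmidt elements.
-/

set_option linter.all false

open scoped InnerProductSpace ENNReal NNReal
open MeasureTheory Filter Topology ContinuousLinearMap Set

namespace Vale.Agent.P092RD

open Vale.Agent.P092CP
open Vale.Agent.P092.RC (Cm)
open POM (ex bd_ex norm_ex ex_add star_ex)

variable {G G' K : Type} [Group G] [TopologicalSpace G] [IsTopologicalGroup G]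
  [LocallyCompactSpace G] [SecondCountableTopology G] [T2Space G] [MeasurableSpace G] [BorelSpace G]
  [Group G'] [TopologicalSpace G'] [IsTopologicalGroup G'] [LocallyCompactSpace G']
  [SecondCountableTopology G'] [T2Space G'] [MeasurableSpace G'] [BorelSpace G']
  [NormedAddCommGroup K] [InnerProductSpace ℂ K] [CompleteSpace K] {μ : Measure G}
  [μ.IsHaarMeasure] {μ' : Measure G'} [μ'.IsHaarMeasure] {W : Set (K →L[ℂ] K)}
  {Z' : Type} [MeasurableSpace Z'] [MulAction G' Z']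

/-- **A translate of `θ` commutes with `θ`**, from one column relation and a family of
Hilbert-Schmidt elements without common left kernel. -/
theorem comm_abs (C : Cpl μ μ' W) [StandardBorelSpace Z'] [MeasurableConstSMul G' Z']
    {θ : POM Z' K} (hθ : θ.IsP) (cm : ∀ g, Bd g → Cm W (θ.f g)) (cov : Cov C.t.π θ)
    {ℓ' : Z' → ℝ} (mℓ' : Measurable ℓ') {U : Set Z'} (hU : MeasurableSet U) (h1 : θ.P U = 1)
    {ι : Type} [Countable ι] (s : Sep G' ℓ' U ι) {κ : Type} {H : κ → K →L[ℂ] K}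
    (cH : ∀ n, Cm W (H n)) (mH : ∀ n t, H n * θ.f (ex t ℓ') = θ.f (ex t ℓ') * H n)
    (hs : ∀ n, C.t.Tr (H n) ≠ ∞) (ker : ∀ X, Cm W X → (∀ n, X * H n = 0) → X = 0) (g : G)
    (col1 : ∀ s t, (C.s.π g * θ.f (ex s ℓ') * C.s.π g⁻¹) * θ.f (ex t ℓ')
      = θ.f (ex t ℓ') * (C.s.π g * θ.f (ex s ℓ') * C.s.π g⁻¹)) {f f' : Z' → ℂ} (hf : Bd f)
    (hf' : Bd f') :
    (C.s.π g * θ.f f * C.s.π g⁻¹) * θ.f f' = θ.f f' * (C.s.π g * θ.f f * C.s.π g⁻¹) := by
  -- translates of `ℓ'`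
  let L : G' → Z' → ℝ := fun h ζ => ℓ' (h⁻¹ • ζ)
  have mL : ∀ h, Measurable (L h) := fun h => mℓ'.comp (measurable_const_smul _)
  have eL : ∀ h t, C.t.π h * θ.f (ex t ℓ') * C.t.π h⁻¹ = θ.f (ex t (L h)) := fun h t =>
    cov h _ (bd_ex t mℓ')
  have col : ∀ h s t, (C.s.π g * θ.f (ex s (L h)) * C.s.π g⁻¹) * θ.f (ex t (L h))
      = θ.f (ex t (L h)) * (C.s.π g * θ.f (ex s (L h)) * C.s.π g⁻¹) := fun h s t => by
    rw [← eL, ← eL, conj_comm]
    exact comm_conj C.t h (col1 s t)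
  let ϑ : POM Z' K := θ.cj (C.s.π g) (C.s.π g⁻¹) (C.s.star_π g) (pi_mul_inv g)
  have hϑ : ϑ.IsP := hθ.cj _ _ (pi_inv_mul g)
  have ϑ1 : ϑ.P U = 1 := by
    change C.s.π g * θ.P U * C.s.π g⁻¹ = 1
    rw [h1, mul_one, pi_mul_inv]
  have cmϑ : ∀ f, Bd f → Cm W (ϑ.f f) := fun f hf => C.s.conj _ (cm f hf) g
  -- first step
  have step : ∀ s' i t, ϑ.f (ex s' ℓ') * θ.f (ex t (s.D i)) = θ.f (ex t (s.D i)) * ϑ.f (ex s' ℓ') := by
    intro s' i t
    let Q : ℕ → Z' → ℝ := fun j ζ => s.r j * (L (s.h i j) ζ - ℓ' ζ)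
    have mQ : ∀ j, Measurable (Q j) := fun j => ((mL _).sub mℓ').const_mul _
    have key : ∀ n, (θ.f (ex t (s.D i)) * ϑ.f (ex s' ℓ') * θ.f (ex (-t) (s.D i))
        - ϑ.f (ex s' ℓ')) * H n = 0 := fun n =>
      d7_core C (A := fun j => ϑ.f (ex s' (L (s.h i j))))
        (u := fun j => θ.f (ex (t * s.r j) ℓ')) (u' := fun j => θ.f (ex (-(t * s.r j)) ℓ'))
        (V := fun j => θ.f (ex t (Q j))) (V' := fun j => θ.f (ex (-t) (Q j)))
        (cmϑ _ (bd_ex _ mℓ')) (cH n)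
        (fun j => cmϑ _ (bd_ex _ (mL _))) (fun j => cm _ (bd_ex _ mℓ'))
        (fun j => cm _ (bd_ex _ mℓ')) (fun j => cm _ (bd_ex _ (mQ j)))
        (fun j => cm _ (bd_ex _ (mQ j))) (fun j => norm_f_ex_le _ _ (mL _))
        (norm_f_ex_le _ _ mℓ') (fun j => norm_f_ex_le _ _ mℓ') (fun j => norm_f_ex_le _ _ mℓ')
        (fun j => norm_f_ex_le _ _ (mQ j))
        (hϑ.tendsto_strong_on hU ϑ1 (fun j => bd_ex _ (mL _)) (bd_ex _ mℓ') zero_le_one
          (fun j x => (norm_ex _ _ x).le) fun x hx => tendsto_ex _ (s.tendsto i hx))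
        (hθ.tendsto_strong_on hU h1 (fun j => bd_ex _ (mQ j)) (bd_ex _ (s.mD i)) zero_le_one
          (fun j x => (norm_ex _ _ x).le) fun x hx => tendsto_ex _ (s.tD i x hx))
        (hθ.tendsto_strong_on hU h1 (fun j => bd_ex _ (mQ j)) (bd_ex _ (s.mD i)) zero_le_one
          (fun j x => (norm_ex _ _ x).le) fun x hx => tendsto_ex _ (s.tD i x hx))
        (fun j => hθ.ex_neg_mul _ mℓ') (fun j => hθ.ex_mul_neg _ (mQ j))
        (fun j => by
          have e : θ.f (ex (t * s.r j) ℓ') * θ.f (ex t (Q j))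
              = θ.f (ex (t * s.r j) (L (s.h i j))) := by
            rw [← hθ.mul _ _ (bd_ex _ mℓ') (bd_ex _ (mQ j))]
            congr 1
            ext ζ
            simp only [ex, Q, Pi.mul_apply, ← Complex.exp_add]
            congr 1
            push_cast
            ring
          rw [e]
          exact col _ _ _)
        (fun j => col1 _ _)
        (fun j => mH n _) (hs n)
    have key2 : θ.f (ex t (s.D i)) * ϑ.f (ex s' ℓ') * θ.f (ex (-t) (s.D i)) - ϑ.f (ex s' ℓ') = 0 :=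
      ker _ (cm_sub (cm_mul (cm_mul (cm _ (bd_ex _ (s.mD i))) (cmϑ _ (bd_ex _ mℓ')))
        (cm _ (bd_ex _ (s.mD i)))) (cmϑ _ (bd_ex _ mℓ'))) key
    rw [← sub_eq_zero.1 key2, mul_assoc, mul_assoc, hθ.ex_neg_mul _ (s.mD i), mul_one,
      sub_eq_zero.1 key2]
  have step2 : ∀ s' f, Bd f → ϑ.f (ex s' ℓ') * θ.f f = θ.f f * ϑ.f (ex s' ℓ') := fun s' f hf =>
    hθ.comm_of_sep hU h1 (ι := Option ι) (D := fun o => o.elim ℓ' s.D)
      (fun o => by cases o; exacts [mℓ', s.mD _])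
      (fun x hx y hy e => s.sep x hx y hy (e none) fun i => e (some i))
      (fun o t => by cases o; exacts [col1 _ _, step _ _ _]) hf
  have step3 : ∀ h s', θ.f f' * ϑ.f (ex s' (L h)) = ϑ.f (ex s' (L h)) * θ.f f' := fun h s' => by
    have b : Bd fun ζ => f' (h • ζ) := hf'.comp (measurable_const_smul _)
    have e : θ.f f' = C.t.π h * θ.f (fun ζ => f' (h • ζ)) * C.t.π h⁻¹ := by
      rw [cov h _ b]; simp
    have e2 : ϑ.f (ex s' (L h)) = C.t.π h * ϑ.f (ex s' ℓ') * C.t.π h⁻¹ := by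
      rw [POM.cj_f, POM.cj_f, ← eL, conj_comm]
    rw [e, e2]
    exact comm_conj C.t h (step2 s' _ b).symm
  refine (hϑ.comm_of_sep hU ϑ1 (ι := Option (ι × ℕ))
    (D := fun o => o.elim (L 1) fun p => L (s.h p.1 p.2))
    (fun o => by cases o; exacts [mL _, mL _]) (fun x hx y hy e => ?_)
    (fun o t => by cases o; exacts [step3 _ _, step3 _ _]) hf).symm
  have e0 : ℓ' x = ℓ' y := by simpa [L] using e none
  refine s.sep x hx y hy e0 fun i => tendsto_nhds_unique (s.tD i x hx) ((s.tD i y hy).congr fun j => ?_)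
  rw [e0]
  exact congrArg (fun w => s.r j * (w - ℓ' y)) (e (some (i, j))).symm

end Vale.Agent.P092RD
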