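import Vale.Agent.P092RD.Pom

/-!
P092 (helper77): induction principles, projection valued measures, intertwiners.
-/

set_option linter.all false

open scoped InnerProductSpace ENNReal NNReal ComplexConjugate CompactlySupported
open MeasureTheory Filter Topology ContinuousLinearMap Set

namespace Vale.Agent.P092RD

open Vale.Agent.P092CP (Bd)
open Vale.Agent.P092.H466 (polar ext_quad exists_wlim norm_le_of_quad)

theorem mapp {K : Type} [NormedAddCommGroup K] [InnerProductSpace ℂ K] (S T : K →L[ℂ] K) (ξ : K) :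
    (S * T) ξ = S (T ξ) := rfl

theorem oapp {K : Type} [NormedAddCommGroup K] [InnerProductSpace ℂ K] (ξ : K) :
    (1 : K →L[ℂ] K) ξ = ξ := rfl

section ind

variable {Y : Type} [m : MeasurableSpace Y]

theorem ind_iUnion {s : ℕ → Set Y} (hd : Pairwise (Function.onFun Disjoint s)) (n : ℕ) :
    ∑ i ∈ Finset.range n, (s i).indicator (1 : Y → ℂ)
      = (⋃ i ∈ Finset.range n, s i).indicator 1 := by
  rw [Finset.indicator_biUnion _ _ fun i _ j _ hij => hd hij]
  ext x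
  simp [Finset.sum_apply]

theorem tendsto_ind_iUnion (s : ℕ → Set Y) (x : Y) :
    Tendsto (fun n => (⋃ i ∈ Finset.range n, s i).indicator (1 : Y → ℂ) x) atTop
      (𝓝 ((⋃ i, s i).indicator 1 x)) := by
  by_cases hx : x ∈ ⋃ i, s i
  · obtain ⟨i, hi⟩ := mem_iUnion.1 hx
    refine tendsto_const_nhds.congr' ((eventually_gt_atTop i).mono fun n hn => ?_)
    dsimp only
    rw [indicator_of_mem hx, indicator_of_mem
      (mem_iUnion₂.2 ⟨i, Finset.mem_range.2 hn, hi⟩ : x ∈ ⋃ i ∈ Finset.range n, s i)]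
  · refine tendsto_const_nhds.congr fun n => ?_
    rw [indicator_of_notMem hx, indicator_of_notMem fun h => hx ?_]
    obtain ⟨i, _, hi⟩ := mem_iUnion₂.1 h
    exact mem_iUnion.2 ⟨i, hi⟩

theorem norm_ind_le (A : Set Y) (x : Y) : ‖A.indicator (1 : Y → ℂ) x‖ ≤ 1 := by
  by_cases hx : x ∈ A <;> simp [hx]

/-- a class of bounded Borel functions closed under linear combinations and bounded limits -/
structure Cls (P : (Y → ℂ) → Prop) : Prop where
  smul : ∀ (c : ℂ) f, Bd f → P f → P (c • f)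
  add : ∀ f g, Bd f → Bd g → P f → P g → P (f + g)
  lim : ∀ (F : ℕ → Y → ℂ) (g : Y → ℂ) (C : ℝ), (∀ n, Bd (F n)) → Bd g →
    (∀ n x, ‖F n x‖ ≤ C) → (∀ x, Tendsto (fun n => F n x) atTop (𝓝 (g x))) → (∀ n, P (F n)) → P g

variable {P : (Y → ℂ) → Prop}

theorem Cls.of_sets (h : Cls P) (ind : ∀ A, MeasurableSet A → P (A.indicator 1)) :
    ∀ f, Bd f → P f :=
  bd_induction (fun c A hA => h.smul c _ (bd_ind1 hA) (ind A hA)) h.add h.lim

theorem Cls.of_pi (h : Cls P) {s : Set (Set Y)} (hm : m = MeasurableSpace.generateFrom s)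
    (hs : IsPiSystem s) (one : P 1) (ind : ∀ A ∈ s, P (A.indicator 1)) : ∀ f, Bd f → P f := by
  have h0 : P 0 := by simpa using h.smul 0 1 bd_one one
  refine h.of_sets fun A hA => MeasurableSpace.induction_on_inter
    (C := fun A _ => P (A.indicator 1)) hm hs ?_ ind ?_ ?_ A hA
  · rw [indicator_empty]; exact h0
  · intro A hA ih
    have := h.add _ _ bd_one (bd_smul (-1) (bd_ind1 hA)) one (h.smul _ _ (bd_ind1 hA) ih)
    convert this using 1
    ext x
    by_cases hx : x ∈ A <;> simp [hx]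
  · intro t hd ht ih
    refine h.lim (fun n => (⋃ i ∈ Finset.range n, t i).indicator 1) _ 1
      (fun n => bd_ind1 (Finset.measurableSet_biUnion _ fun i _ => ht i))
      (bd_ind1 (MeasurableSet.iUnion ht)) (fun n x => norm_ind_le _ x) (tendsto_ind_iUnion t)
      fun n => ?_
    rw [← ind_iUnion hd]
    induction n with
    | zero => simpa using h0
    | succ n ihn =>
      rw [Finset.sum_range_succ]
      exact h.add _ _ (bd_sum _ fun i _ => bd_ind1 (ht i)) (bd_ind1 (ht n)) ihn (ih n)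

theorem bd_cc [TopologicalSpace Y] [OpensMeasurableSpace Y] (g : C_c(Y, ℝ)) :
    Bd fun y => (g y : ℂ) := by
  obtain ⟨C, hC⟩ := g.continuous.bounded_above_of_compact_support g.hasCompactSupport
  exact bd_real g.continuous.measurable hC

/-- from compactly supported continuous functions -/
theorem Cls.of_cc [TopologicalSpace Y] [BorelSpace Y] [LocallyCompactSpace Y] [T2Space Y]
    [SecondCountableTopology Y] (h : Cls P) (cc : ∀ g : C_c(Y, ℝ), P fun y => (g y : ℂ)) :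
    ∀ f, Bd f → P f := by
  have key : ∀ F : Set Y, IsClosed F → P (F.indicator 1) := by
    intro F hF
    choose φ h1 _ h3 h4 using fun n => exists_continuous_one_zero_of_isCompact
      (isCompact_compactCovering Y n) isClosed_empty (disjoint_empty _)
    let g : ℕ → C_c(Y, ℝ) := fun n =>
      ⟨⟨fun y => φ n y * (hF.apprSeq n y : ℝ), by fun_prop⟩, (h3 n).mul_right⟩
    have hg : ∀ n y, g n y = φ n y * (hF.apprSeq n y : ℝ) := fun _ _ => rfl
    refine h.lim (fun n y => (g n y : ℂ)) _ 1 (fun n => bd_cc _) (bd_ind1 hF.measurableSet)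
      (fun n y => ?_) (fun y => ?_) fun n => cc _
    · rw [Complex.norm_real, hg, Real.norm_of_nonneg (mul_nonneg (h4 n y).1 (NNReal.coe_nonneg _))]
      exact mul_le_one₀ (h4 n y).2 (NNReal.coe_nonneg _)
        (by exact_mod_cast HasOuterApproxClosed.apprSeq_apply_le_one hF n y)
    · have a1 := (tendsto_pi_nhds.1 (HasOuterApproxClosed.tendsto_apprSeq hF)) y
      have a2 : F.indicator (1 : Y → ℂ) y
          = (((F.indicator (fun _ => (1 : ℝ≥0)) y : ℝ≥0) : ℝ) : ℂ) := by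
        by_cases hx : y ∈ F <;> simp [hx]
      rw [a2]
      refine (Complex.continuous_ofReal.tendsto _).comp
        (((NNReal.continuous_coe.tendsto _).comp a1).congr' ?_)
      obtain ⟨n, hn⟩ := exists_mem_compactCovering y
      filter_upwards [eventually_ge_atTop n] with k hk
      rw [hg, h1 k (compactCovering_subset Y hk hn)]
      simp
  refine h.of_pi (s := {F | IsClosed F}) ?_ isPiSystem_isClosed ?_ key
  · rw [‹BorelSpace Y›.measurable_eq, borel_eq_generateFrom_isClosed]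
  · simpa using key univ isClosed_univ

/-- from bounded continuous functions -/
theorem Cls.of_cb [TopologicalSpace Y] [BorelSpace Y] [HasOuterApproxClosed Y] (h : Cls P)
    (cb : ∀ g : Y → ℝ, Continuous g → (∀ y, 0 ≤ g y ∧ g y ≤ 1) → P fun y => (g y : ℂ)) :
    ∀ f, Bd f → P f := by
  have key : ∀ F : Set Y, IsClosed F → P (F.indicator 1) := by
    intro F hF
    have hb : ∀ n y, 0 ≤ (hF.apprSeq n y : ℝ) ∧ (hF.apprSeq n y : ℝ) ≤ 1 := fun n y =>
      ⟨NNReal.coe_nonneg _, by exact_mod_cast HasOuterApproxClosed.apprSeq_apply_le_one hF n y⟩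
    have hc : ∀ n, Continuous fun y => (hF.apprSeq n y : ℝ) := fun n => by fun_prop
    refine h.lim (fun n y => ((hF.apprSeq n y : ℝ) : ℂ)) _ 1
      (fun n => bd_real (hc n).measurable (C := 1) fun y => by
        rw [abs_of_nonneg (hb n y).1]; exact (hb n y).2) (bd_ind1 hF.measurableSet)
      (fun n y => ?_) (fun y => ?_) fun n => cb _ (hc n) (hb n)
    · rw [Complex.norm_real, Real.norm_of_nonneg (hb n y).1]; exact (hb n y).2
    · have a1 := (tendsto_pi_nhds.1 (HasOuterApproxClosed.tendsto_apprSeq hF)) y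
      have a2 : F.indicator (1 : Y → ℂ) y
          = (((F.indicator (fun _ => (1 : ℝ≥0)) y : ℝ≥0) : ℝ) : ℂ) := by
        by_cases hx : y ∈ F <;> simp [hx]
      rw [a2]
      exact (Complex.continuous_ofReal.tendsto _).comp ((NNReal.continuous_coe.tendsto _).comp a1)
  refine h.of_pi (s := {F | IsClosed F}) ?_ isPiSystem_isClosed ?_ key
  · rw [‹BorelSpace Y›.measurable_eq, borel_eq_generateFrom_isClosed]
  · simpa using key univ isClosed_univ

end ind

namespace POM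

variable {Y K K' : Type} [MeasurableSpace Y] [NormedAddCommGroup K] [InnerProductSpace ℂ K]
  [NormedAddCommGroup K'] [InnerProductSpace ℂ K'] {θ : POM Y K} {a b g h : Y → ℂ} {A B : Set Y}

/-- `S θ(r g) T = S' θ'(r' g) T'` is a closed class (`r`, `r'` multipliers) -/
theorem cls_eq {K₁ K₂ : Type} [NormedAddCommGroup K₁] [InnerProductSpace ℂ K₁]
    [NormedAddCommGroup K₂] [InnerProductSpace ℂ K₂] (θ : POM Y K) (θ' : POM Y K')
    (S : K →L[ℂ] K₂) (T : K₁ →L[ℂ] K) (S' : K' →L[ℂ] K₂) (T' : K₁ →L[ℂ] K') {r r' : Y → ℂ}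
    (hr : Bd r) (hr' : Bd r') :
    Cls fun g => S ∘L θ.f (r * g) ∘L T = S' ∘L θ'.f (r' * g) ∘L T' where
  smul c g hg e := by
    rw [mul_smul_comm, mul_smul_comm, θ.smul c (bd_mul hr hg), θ'.smul c (bd_mul hr' hg),
      smul_comp, smul_comp, comp_smul, comp_smul, e]
  add f g hf hg e1 e2 := by
    rw [mul_add, mul_add, θ.add (bd_mul hr hf) (bd_mul hr hg),
      θ'.add (bd_mul hr' hf) (bd_mul hr' hg), add_comp, add_comp, comp_add, comp_add, e1, e2]
  lim F g C hF hg hC hl e := by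
    ext ξ
    have key : ∀ {L : Type} [NormedAddCommGroup L] [InnerProductSpace ℂ L] (ϑ : POM Y L)
        {r : Y → ℂ}, Bd r → ∀ x : L,
        Tendsto (fun n => ϑ.f (r * F n) x) atTop (𝓝 (ϑ.f (r * g) x)) := by
      intro L _ _ ϑ r hr x
      obtain ⟨D, hD0, hD⟩ := bd_nonneg hr
      exact ϑ.tendsto_strong (C := D * C) (fun n => bd_mul hr (hF n)) (bd_mul hr hg)
        (fun n y => by
          rw [Pi.mul_apply, norm_mul]; exact mul_le_mul (hD y) (hC n y) (norm_nonneg _) hD0)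
        (fun y => (hl y).const_mul _) x
    refine tendsto_nhds_unique ((S.continuous.tendsto _).comp (key θ hr (T ξ))) ?_
    refine ((S'.continuous.tendsto _).comp (key θ' hr' (T' ξ))).congr fun n => ?_
    exact (congrArg (fun X : K₁ →L[ℂ] K₂ => X ξ) (e n)).symm

/-- intertwiners form a closed class -/
theorem cls_tw (θ : POM Y K) (θ' : POM Y K') (T : K →L[ℂ] K') :
    Cls fun g => T ∘L θ.f g = θ'.f g ∘L T := by
  have := cls_eq θ θ' T (ContinuousLinearMap.id ℂ K) (ContinuousLinearMap.id ℂ K') T bd_one bd_one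
  simpa using this

theorem cls_comm (θ : POM Y K) (T : K →L[ℂ] K) : Cls fun g => T * θ.f g = θ.f g * T :=
  cls_tw θ θ T

theorem cls_ext (θ θ' : POM Y K) : Cls fun g => θ.f g = θ'.f g := by
  simpa using cls_tw θ θ' (ContinuousLinearMap.id ℂ K)

theorem cls_mul (θ : POM Y K) (hh : Bd h) : Cls fun g => θ.f (h * g) = θ.f h * θ.f g := by
  have := cls_eq θ θ (ContinuousLinearMap.id ℂ K) (ContinuousLinearMap.id ℂ K) (θ.f h)
    (ContinuousLinearMap.id ℂ K) hh bd_one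
  simpa [mul_def] using this

theorem cls_mul' (θ : POM Y K) (hh : Bd h) : Cls fun g => θ.f (h * g) = θ.f g * θ.f h := by
  have := cls_eq θ θ (ContinuousLinearMap.id ℂ K) (ContinuousLinearMap.id ℂ K)
    (ContinuousLinearMap.id ℂ K) (θ.f h) hh bd_one
  simpa [mul_def] using this

theorem comm_of_P {T : K →L[ℂ] K} (e : ∀ A, MeasurableSet A → T * θ.P A = θ.P A * T) (hg : Bd g) :
    T * θ.f g = θ.f g * T := (θ.cls_comm T).of_sets e g hg

/-- multiplicativity on a class which generates -/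
theorem isP_of_gen (θ : POM Y K) (G : Set (Y → ℂ)) (hG : ∀ g ∈ G, Bd g)
    (gen : ∀ P : (Y → ℂ) → Prop, Cls P → (∀ g ∈ G, P g) → ∀ f, Bd f → P f) (one : θ.f 1 = 1)
    (mul : ∀ g ∈ G, ∀ h ∈ G, θ.f (g * h) = θ.f g * θ.f h) : θ.IsP where
  one := one
  mul g h hg hh := by
    refine gen _ (θ.cls_mul hg) (fun k hk => ?_) h hh
    rw [mul_comm g k]
    refine gen _ (θ.cls_mul' (hG k hk)) (fun j hj => ?_) g hg
    rw [mul_comm k j]
    exact mul j hj k hk

theorem isP_of_sets (θ : POM Y K) (one : θ.f 1 = 1)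
    (mul : ∀ A B, MeasurableSet A → MeasurableSet B → θ.P (A ∩ B) = θ.P A * θ.P B) : θ.IsP := by
  refine θ.isP_of_gen {g | ∃ A, MeasurableSet A ∧ g = A.indicator 1} ?_ ?_ one ?_
  · rintro _ ⟨A, hA, rfl⟩; exact bd_ind1 hA
  · exact fun P hP h => hP.of_sets fun A hA => h _ ⟨A, hA, rfl⟩
  · rintro _ ⟨A, hA, rfl⟩ _ ⟨B, hB, rfl⟩
    rw [← inter_indicator_one]
    exact mul A B hA hB

theorem isP_of_cc [TopologicalSpace Y] [BorelSpace Y] [LocallyCompactSpace Y] [T2Space Y]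
    [SecondCountableTopology Y] (θ : POM Y K) (one : θ.f 1 = 1)
    (mul : ∀ g h : C_c(Y, ℝ), θ.f (fun y => ((g y * h y : ℝ) : ℂ))
      = θ.f (fun y => (g y : ℂ)) * θ.f fun y => (h y : ℂ)) : θ.IsP := by
  refine θ.isP_of_gen {g | ∃ k : C_c(Y, ℝ), g = fun y => (k y : ℂ)} ?_ ?_ one ?_
  · rintro _ ⟨k, rfl⟩; exact bd_cc k
  · exact fun P hP h => hP.of_cc fun k => h _ ⟨k, rfl⟩
  · rintro _ ⟨k, rfl⟩ _ ⟨j, rfl⟩
    rw [← mul k j]
    congr 1
    ext y
    simp

namespace IsP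

theorem comm (hθ : θ.IsP) (hg : Bd g) (hh : Bd h) : θ.f g * θ.f h = θ.f h * θ.f g := by
  rw [← hθ.mul g h hg hh, ← hθ.mul h g hh hg, mul_comm]

theorem P_inter (hθ : θ.IsP) (hA : MeasurableSet A) (hB : MeasurableSet B) :
    θ.P (A ∩ B) = θ.P A * θ.P B := by
  rw [P, inter_indicator_one, hθ.mul _ _ (bd_ind1 hA) (bd_ind1 hB)]; rfl

theorem P_univ (hθ : θ.IsP) : θ.P univ = 1 := by rw [θ.P_univ, hθ.one]

theorem P_compl (hθ : θ.IsP) (hA : MeasurableSet A) : θ.P Aᶜ = 1 - θ.P A := by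
  rw [← hθ.P_univ, ← union_compl_self A, θ.P_union hA hA.compl disjoint_compl_right]
  abel

theorem P_idem (hθ : θ.IsP) (hA : MeasurableSet A) : θ.P A * θ.P A = θ.P A := by
  rw [← hθ.P_inter hA hA, inter_self]

theorem P_disj (hθ : θ.IsP) (hA : MeasurableSet A) (hB : MeasurableSet B) (hd : Disjoint A B) :
    θ.P A * θ.P B = 0 := by
  rw [← hθ.P_inter hA hB, hd.inter_eq, θ.P_empty]

theorem P_sub (hθ : θ.IsP) (hA : MeasurableSet A) (hB : MeasurableSet B) (hs : A ⊆ B) :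
    θ.P A * θ.P B = θ.P A := by
  rw [← hθ.P_inter hA hB, inter_eq_self_of_subset_left hs]

theorem P_sub' (hθ : θ.IsP) (hA : MeasurableSet A) (hB : MeasurableSet B) (hs : A ⊆ B) :
    θ.P B * θ.P A = θ.P A := by
  rw [← hθ.P_inter hB hA, inter_eq_self_of_subset_right hs]

theorem P_mul_f (hθ : θ.IsP) (hA : MeasurableSet A) (hg : Bd g) :
    θ.P A * θ.f g = θ.f (A.indicator g) := by
  rw [P, ← hθ.mul _ _ (bd_ind1 hA) hg]
  congr 1
  ext y
  by_cases hy : y ∈ A <;> simp [hy]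

theorem f_mul_P (hθ : θ.IsP) (hA : MeasurableSet A) (hg : Bd g) :
    θ.f g * θ.P A = θ.f (A.indicator g) := by
  rw [← hθ.P_mul_f hA hg, P, hθ.comm hg (bd_ind1 hA)]

theorem const (hθ : θ.IsP) (c : ℂ) : θ.f (fun _ => c) = c • 1 := by
  rw [← hθ.one, ← θ.smul c bd_one]
  congr 1
  ext y
  simp

theorem prod (hθ : θ.IsP) {n : ℕ} {F : Fin n → Y → ℂ} (hF : ∀ i, Bd (F i)) :
    θ.f (∏ i, F i) = (List.ofFn fun i => θ.f (F i)).prod := by
  induction n with
  | zero => simp [hθ.one]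
  | succ n ih =>
    rw [Fin.prod_univ_succ, List.ofFn_succ, List.prod_cons,
      hθ.mul _ _ (hF 0) (bd_prod _ fun i _ => hF _), ih fun i => hF i.succ]

theorem norm_sq (hθ : θ.IsP) (hg : Bd g) (ξ : K) :
    ‖θ.f g ξ‖ ^ 2 = ∫ y, ‖g y‖ ^ 2 ∂θ.ν ξ := by
  have h1 : ⟪θ.f g ξ, θ.f g ξ⟫_ℂ = ∫ y, ((‖g y‖ ^ 2 : ℝ) : ℂ) ∂θ.ν ξ := by
    rw [← θ.inner_star hg, ← mapp, ← hθ.mul _ _ (bd_star hg) hg,
      θ.rep _ (bd_mul (bd_star hg) hg)]
    refine integral_congr_ae (Eventually.of_forall fun y => ?_)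
    simp [Complex.conj_mul']
  rw [inner_self_eq_norm_sq_to_K, integral_complex_ofReal] at h1
  refine Complex.ofReal_injective ?_
  rw [← h1]; push_cast; rfl

theorem enorm_sq (hθ : θ.IsP) (hg : Bd g) (ξ : K) :
    ‖θ.f g ξ‖ₑ ^ 2 = ∫⁻ y, ‖g y‖ₑ ^ 2 ∂θ.ν ξ := by
  rw [← ofReal_norm_eq_enorm, ← ENNReal.ofReal_pow (norm_nonneg _), hθ.norm_sq hg,
    ofReal_integral_eq_lintegral_ofReal (bd_int_sq hg _)
      (Eventually.of_forall fun _ => sq_nonneg _)]
  refine lintegral_congr fun y => ?_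
  rw [ENNReal.ofReal_pow (norm_nonneg _), ofReal_norm_eq_enorm]

theorem enorm_P_sq (hθ : θ.IsP) (hA : MeasurableSet A) (ξ : K) : ‖θ.P A ξ‖ₑ ^ 2 = θ.ν ξ A := by
  rw [P, hθ.enorm_sq (bd_ind1 hA), ← lintegral_indicator_one hA]
  refine lintegral_congr fun y => ?_
  by_cases hy : y ∈ A <;> simp [hy]

theorem norm_P_sq (hθ : θ.IsP) (hA : MeasurableSet A) (ξ : K) :
    ‖θ.P A ξ‖ ^ 2 = (θ.ν ξ).real A := by
  rw [Measure.real, ← hθ.enorm_P_sq hA]
  simp

theorem ν_univ (hθ : θ.IsP) (ξ : K) : θ.ν ξ univ = ‖ξ‖ₑ ^ 2 := by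
  rw [← hθ.enorm_P_sq MeasurableSet.univ, hθ.P_univ, oapp]

theorem ν_P (hθ : θ.IsP) (hA : MeasurableSet A) (ξ : K) :
    θ.ν (θ.P A ξ) = (θ.ν ξ).restrict A := by
  ext B hB
  rw [← hθ.enorm_P_sq hB, ← mapp, ← hθ.P_inter hB hA, hθ.enorm_P_sq (hB.inter hA),
    Measure.restrict_apply hB]

theorem norm_P_mono (hθ : θ.IsP) (hA : MeasurableSet A) (hB : MeasurableSet B) (hs : A ⊆ B)
    (ξ : K) : ‖θ.P A ξ‖ ≤ ‖θ.P B ξ‖ := by
  rw [← hθ.P_sub hA hB hs, mapp]
  exact θ.norm_P_apply_le hA _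

/-- the norm of `θ(g)` on the range of `θ(A)` -/
theorem norm_f_P_le (hθ : θ.IsP) (hA : MeasurableSet A) (hg : Bd g) {C : ℝ} (hC0 : 0 ≤ C)
    (hC : ∀ y ∈ A, ‖g y‖ ≤ C) (ξ : K) : ‖θ.f g (θ.P A ξ)‖ ≤ C * ‖θ.P A ξ‖ := by
  have e : θ.f g * θ.P A = θ.f (A.indicator g) * θ.P A := by
    rw [← hθ.f_mul_P hA hg, mul_assoc, hθ.P_idem hA]
  rw [← mapp, e, mapp]
  exact θ.norm_apply_le (bd_ind hA hg) hC0 (fun y => by
    by_cases hy : y ∈ A
    · rw [indicator_of_mem hy]; exact hC y hy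
    · rw [indicator_of_notMem hy, norm_zero]; exact hC0) _

theorem f_congr_on (hθ : θ.IsP) (hA : MeasurableSet A) (h1 : θ.P A = 1) (hg : Bd g) (hh : Bd h)
    (e : ∀ y ∈ A, g y = h y) : θ.f g = θ.f h := by
  rw [← mul_one (θ.f g), ← mul_one (θ.f h), ← h1, hθ.f_mul_P hA hg, hθ.f_mul_P hA hh,
    indicator_congr e]

theorem star_mul_self [CompleteSpace K] (hθ : θ.IsP) (hg : Bd g) (h1 : ∀ y, ‖g y‖ = 1) :
    star (θ.f g) * θ.f g = 1 ∧ θ.f g * star (θ.f g) = 1 := by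
  have e : star g * g = 1 := by
    ext y
    simp [Complex.conj_mul', h1 y]
  rw [θ.star_f hg, ← hθ.mul _ _ (bd_star hg) hg, ← hθ.mul _ _ hg (bd_star hg), mul_comm g, e,
    hθ.one]
  exact ⟨rfl, rfl⟩

end IsP

/-- increasing sets -/
theorem tendsto_P_iUnion (θ : POM Y K) {s : ℕ → Set Y} (hs : ∀ n, MeasurableSet (s n))
    (hm : Monotone s) (ξ : K) : Tendsto (fun n => θ.P (s n) ξ) atTop (𝓝 (θ.P (⋃ n, s n) ξ)) := by
  refine θ.tendsto_strong (C := 1) (fun n => bd_ind1 (hs n)) (bd_ind1 (.iUnion hs))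
    (fun n x => norm_ind_le _ x) (fun x => ?_) ξ
  by_cases hx : x ∈ ⋃ i, s i
  · obtain ⟨i, hi⟩ := mem_iUnion.1 hx
    refine tendsto_const_nhds.congr' ((eventually_ge_atTop i).mono fun n hn => ?_)
    dsimp only
    rw [indicator_of_mem hx, indicator_of_mem (hm hn hi)]
  · refine tendsto_const_nhds.congr fun n => ?_
    rw [indicator_of_notMem hx, indicator_of_notMem fun h => hx (mem_iUnion.2 ⟨n, h⟩)]

end POM

end Vale.Agent.P092RD
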